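import Crest.Agent.X262.Blow.Loc
import Crest.Agent.X277.Res.LogD

/-!
# Row 262, BLOW (helper98), part Mod: the blow-up of a smooth centre as a projective model

* `Gens P q`     : sections `f j` of `O(m)` which generate the ideal sheaf of the centre, twisted;
* `SmC.exists_gens` : they exist;
* `G.bl h`, `G.r h` : the blow-up (coordinates `y i * f j`) and the morphism to `P`;
* `G.lp_off`, `G.exists_off`, `G.over`, `G.exists_on` : the points of the blow-up.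
-/

set_option autoImplicit false
set_option linter.unusedSectionVars false

open scoped KaehlerDifferential

noncomputable section

namespace Crest.Agent.X262.Blow

open Crest.Agent.X277.Lef Crest.Agent.X277.Res.Out Crest.Agent.X277.AN.G1
  Crest.Agent.X277.Res.Log Crest.Agent.X277.Strat.Fac

variable {F κ : Type} [Field F] [Field κ] [Algebra ℂ F] [Algebra ℂ κ] {P : PModel ℂ F}
  {q : Plc F κ} {c d : ℕ}

/-! ### coordinates at all points -/

theorem exists_coords_of_basis {n : ℕ} (b : Module.Basis (Fin n) F Ω[F⁄ℂ]) (x : Pts P) :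
    ∃ t : Fin n → F, Coords (lp x).O t := by
  obtain ⟨z, hz⟩ := exists_crd b x
  have h1 : ∀ l, z l - algebraMap ℂ F (ev (z l) x) ∈ (lp x).O := fun l =>
    sub_mem (hz.mem l) (algebraMap_mem _ _)
  have h2 : ∀ l, ev (z l - algebraMap ℂ F (ev (z l) x)) x = 0 := fun l => by
    rw [ev, LP.v_sub (hz.mem l) (algebraMap_mem _ _), LP.v_alg, ← ev, sub_self]
  refine ⟨_, coords_of_crd b ⟨h1, fun f hf => ?_⟩ h2⟩
  obtain ⟨c, hc, h3⟩ := hz.gen f hf
  refine ⟨c, hc, h3.trans ?_⟩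
  simp only [show ∀ l, (lp x).v (z l - algebraMap ℂ F (ev (z l) x)) = 0 from h2, map_zero, sub_zero]

theorem basis_of_coords {n : ℕ} {x : Pts P} {t : Fin n → F} (ht : Coords (lp x).O t) :
    Nonempty (Module.Basis (Fin n) F Ω[F⁄ℂ]) :=
  ⟨Module.Basis.mk (linearIndependent_D ht) (span_D (crd_of_coords ht)).ge⟩

theorem SmC.exists_basis (h : SmC P q c d) : Nonempty (Module.Basis (Fin (c + d)) F Ω[F⁄ℂ]) := by
  obtain ⟨x, hx⟩ := h.ne
  obtain ⟨s, w, ha⟩ := h.crd x hx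
  exact basis_of_coords (ha.co.coords finSumFinEquiv.symm)

theorem SmC.exists_basis' (h : SmC P q c d) : Nonempty (Module.Basis (Fin d) κ Ω[κ⁄ℂ]) := by
  obtain ⟨x, hx⟩ := h.ne
  obtain ⟨s, w, ha⟩ := h.crd x hx
  obtain ⟨z, hz⟩ := h.mdl.down x hx
  exact basis_of_coords (ha.coords h hz)

/-! ### localisations -/

section Of

variable {L L' : LP F} {B B' : Subalgebra ℂ F}

/-- the restriction of the value -/
def resV (h : B ≤ L.O) : B →ₐ[ℂ] ℂ := L.hom.comp (Subalgebra.inclusion h)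

theorem dom_resV (h : B ≤ L.O) : (lpAt (resV h)).Dom L := lpAt_dom _ h fun _ => rfl

theorem div_mem_resV (h : B ≤ L.O) {a b : F} (ha : a ∈ B) (hb : b ∈ B) (h0 : L.v b ≠ 0) :
    a / b ∈ (lpAt (resV h)).O :=
  ⟨⟨a, ha⟩, ⟨b, hb⟩, h0, div_mul_cancel₀ _ (LP.ne_zero_of_ne h0)⟩

theorem eq_of_of (h : L'.Of B) (hd : L.Dom L') (hB : B ≤ L.O) : L = L' := by
  refine LP.ext' hd fun f hf => ?_
  obtain ⟨a, ha, b, hb, h0, h1⟩ := h.loc f hf
  rw [← mul_div_cancel_right₀ f (LP.ne_zero_of_ne h0), h1]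
  exact LP.div_mem (hB ha) (by rwa [← hd.eq b (hB hb)])

theorem of_of_le (h : L.Of B') (hB : B ≤ L.O) (h' : B' ≤ (lpAt (resV hB)).O) : L.Of B :=
  eq_of_of h (dom_resV hB) h' ▸ LP.of_lpAt _

end Of

theorem Over.of {ι : Type} [Fintype ι] [DecidableEq ι] {L L' : LP F} {s : ι → F} {l : ι}
    (h : Over L L' s l) : L'.Of (chB L.O s l) := ⟨h.le, h.loc⟩

/-! ### generators of the ideal sheaf -/

/-- sections of `O(m)` which generate the twisted ideal sheaf of the centre -/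
structure Gens (P : PModel ℂ F) (q : Plc F κ) where
  /-- the number of sections, minus one -/
  M : ℕ
  /-- the twist -/
  m : ℕ
  /-- the sections -/
  f : Fin (M + 1) → F
  ne : ∀ j, f j ≠ 0
  mem : ∀ j i, f j / P.y i ^ m ∈ P.A i
  van : ∀ j i, P.A i ≤ q.O → q.π (f j / P.y i ^ m) = 0
  gen : ∀ i, ∀ x ∈ pat P i, ∀ a ∈ (lp x).O, ((lp x).O ≤ q.O → q.π a = 0) →
    InI (lp x).O (fun j => f j / P.y i ^ m) a

theorem A_le_of_ne {i i' : Fin (P.N + 1)} (h : P.A i' ≤ q.O) (h0 : q.π (P.y i / P.y i') ≠ 0) :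
    P.A i ≤ q.O := by
  refine Algebra.adjoin_le ?_
  rintro _ ⟨j, rfl⟩
  change P.y j / P.y i ∈ q.O
  rw [y_div i' i j]
  exact Plc.div_mem (h (div_mem_chart P.y i' j)) h0

/-- the ideal of the centre in a chart -/
def chI (q : Plc F κ) (i : Fin (P.N + 1)) : Ideal (P.A i) where
  carrier := {a | P.A i ≤ q.O → q.π a = 0}
  add_mem' {a b} ha hb h := by
    rw [AddMemClass.coe_add, q.π_add (h a.2) (h b.2), ha h, hb h, add_zero]
  zero_mem' _ := q.π_zero
  smul_mem' a b hb h := by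
    rw [smul_eq_mul, MulMemClass.coe_mul, q.π_mul (h a.2) (h b.2), hb h, mul_zero]

theorem SmC.exists_gens (h : SmC P q c d) (hc : 0 < c) : Nonempty (Gens P q) := by
  classical
  choose S hS using fun i => IsNoetherian.noetherian (chI (P := P) q i)
  have h1 : ∀ i i', ∀ g : P.A i, ∃ e : ℕ, (P.y i / P.y i') ^ e * g ∈ P.A i' :=
    fun i i' g => P.exists_pow_mul_mem i' i g.2
  choose e he using h1
  set m := (Finset.univ.sup fun i => Finset.univ.sup fun i' => (S i).sup (e i i')) + 1 with hm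
  have hlt : ∀ i i', ∀ g ∈ S i, e i i' g < m := fun i i' g hg => Nat.lt_succ_of_le
    (le_trans (le_trans (Finset.le_sup (f := e i i') hg)
      (Finset.le_sup (f := fun i' => (S i).sup (e i i')) (Finset.mem_univ i')))
      (Finset.le_sup (f := fun i => Finset.univ.sup fun i' => (S i).sup (e i i'))
        (Finset.mem_univ i)))
  let T : Finset F := (Finset.univ.biUnion fun i => (S i).image fun g : P.A i =>
    (g : F) * P.y i ^ m).erase 0
  have hT : ∀ {a}, a ∈ T ↔ a ≠ 0 ∧ ∃ i, ∃ g ∈ S i, (g : F) * P.y i ^ m = a := by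
    intro a
    simp [T]
  have hgen : ∀ i, ∀ a ∈ chI (P := P) q i,
      InI (P.A i) (fun j : T => (j : F) / P.y i ^ m) (a : F) := by
    intro i a ha
    rw [← hS i] at ha
    induction ha using Submodule.span_induction with
    | mem g hg =>
      by_cases h0 : (g : F) = 0
      · rw [h0]; exact InI.zero
      · have h2 := InI.self (O := P.A i) (s := fun j : T => (j : F) / P.y i ^ m)
          ⟨_, hT.2 ⟨mul_ne_zero h0 (pow_ne_zero _ (P.y_ne i)), i, g, hg, rfl⟩⟩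
        rwa [mul_div_cancel_right₀ _ (pow_ne_zero _ (P.y_ne i))] at h2
    | zero => exact InI.zero
    | add a b _ _ h2 h3 => exact h2.add h3
    | smul a b _ h2 => exact h2.mul_left a.2
  have hloc : ∀ i, ∀ x ∈ pat P i, ∀ a ∈ (lp x).O, ((lp x).O ≤ q.O → q.π a = 0) →
      InI (lp x).O (fun j : T => (j : F) / P.y i ^ m) a := by
    intro i x hx a ha h0
    by_cases hZ : (lp x).O ≤ q.O
    · obtain ⟨a', ha', b, hb, h2, h3⟩ := (mem_lp_iff hx).1 ha
      have h4 := ((hgen i ⟨a', ha'⟩ fun _ => by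
        change q.π a' = 0
        rw [← h3, q.π_mul (hZ ha) (hZ (A_le hx hb)), h0 hZ, zero_mul]).mono (A_le hx)).mul_right
        ((lp x).inv_mem h2)
      change InI _ _ (a' * b⁻¹) at h4
      rwa [← h3, mul_inv_cancel_right₀ (LP.ne_zero_of_ne h2)] at h4
    · obtain ⟨b, hb, h2, h3⟩ := exists_sepZ hx hZ
      have h4 := ((hgen i ⟨b, hb⟩ h3).mono (A_le hx)).mul_left (LP.div_mem ha h2)
      change InI _ _ (a / b * b) at h4
      rwa [div_mul_cancel₀ _ (LP.ne_zero_of_ne h2)] at h4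
  have hne : Nonempty T := by
    by_contra h0
    obtain ⟨x, hx⟩ := h.ne
    obtain ⟨s, w, ha⟩ := h.crd x hx
    obtain ⟨i, hi⟩ := exists_pat x
    obtain ⟨r, -, hr⟩ := hloc i x hi _ (ha.s_mem ⟨0, hc⟩) fun _ => ha.π_s _
    rw [not_nonempty_iff] at h0
    exact ha.s_ne _ (by rw [hr, Finset.univ_eq_empty, Finset.sum_empty])
  obtain ⟨M, hM⟩ := Nat.exists_eq_succ_of_ne_zero (Fintype.card_pos (α := T)).ne'
  let ε : T ≃ Fin (M + 1) := Fintype.equivFinOfCardEq hM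
  have hkey : ∀ a ∈ T, ∀ i', a / P.y i' ^ m ∈ P.A i' ∧
      (P.A i' ≤ q.O → q.π (a / P.y i' ^ m) = 0) := by
    intro a ha i'
    obtain ⟨-, i, g, hg, rfl⟩ := hT.1 ha
    obtain ⟨k, hk⟩ := Nat.exists_eq_add_of_lt (hlt i i' g hg)
    have h2 : (g : F) * P.y i ^ m / P.y i' ^ m =
        P.y i / P.y i' * ((P.y i / P.y i') ^ k * ((P.y i / P.y i') ^ e i i' g * g)) := by
      rw [mul_div_assoc, ← div_pow, hk]
      ring
    have h3 := div_mem_chart (k := ℂ) P.y i' i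
    refine ⟨h2 ▸ mul_mem h3 (mul_mem (pow_mem h3 _) (he i i' g)), fun hA => ?_⟩
    rw [h2, q.π_mul (hA h3) (hA (mul_mem (pow_mem h3 _) (he i i' g)))]
    by_cases h4 : q.π (P.y i / P.y i') = 0
    · rw [h4, zero_mul]
    · have h5 := A_le_of_ne hA h4
      have h6 : q.π g = 0 := (show g ∈ chI (P := P) q i from hS i ▸ Submodule.subset_span hg) h5
      rw [q.π_mul (hA (pow_mem h3 _)) (hA (he i i' g)), q.π_mul (hA (pow_mem h3 _)) (h5 g.2), h6]
      simp
  refine ⟨⟨M, m, fun j => ε.symm j, fun j => (hT.1 (ε.symm j).2).1,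
    fun j i => (hkey _ (ε.symm j).2 i).1, fun j i => (hkey _ (ε.symm j).2 i).2,
    fun i x hx a ha h0 => (hloc i x hx a ha h0).trans fun j => ?_⟩⟩
  simpa using InI.self (O := (lp x).O) (s := fun j => (ε.symm j : F) / P.y i ^ m) (ε j)

namespace Gens

variable (G : Gens P q)

/-- the local generators -/
abbrev g (i : Fin (P.N + 1)) (j : Fin (G.M + 1)) : F := G.f j / P.y i ^ G.m

theorem g_ne (i : Fin (P.N + 1)) (j : Fin (G.M + 1)) : G.g i j ≠ 0 :=
  div_ne_zero (G.ne j) (pow_ne_zero _ (P.y_ne i))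

theorem g_div (i : Fin (P.N + 1)) (k j : Fin (G.M + 1)) : G.g i k / G.g i j = G.f k / G.f j :=
  div_div_div_cancel_right₀ (pow_ne_zero _ (P.y_ne i)) _ _

variable {G} {i : Fin (P.N + 1)} {j : Fin (G.M + 1)} {x : Pts P} {L' : LP F}
  {s : Fin c → F} {w : Fin d → F}

theorem g_mem (hx : x ∈ pat P i) (j : Fin (G.M + 1)) : G.g i j ∈ (lp x).O := A_le hx (G.mem j i)

theorem inI_g (ha : Ad q x s w) (hx : x ∈ pat P i) (j : Fin (G.M + 1)) :
    InI (lp x).O s (G.g i j) :=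
  (ha.ker _ (g_mem hx j)).1 (G.van j i ((A_le hx).trans ha.le))

theorem inI_s (ha : Ad q x s w) (hx : x ∈ pat P i) (a : Fin c) : InI (lp x).O (G.g i) (s a) :=
  G.gen i x hx _ (ha.s_mem a) fun _ => ha.π_s a

theorem inI_one (hx : x ∈ pat P i) (hZ : ¬ (lp x).O ≤ q.O) : InI (lp x).O (G.g i) 1 :=
  G.gen i x hx _ (one_mem _) fun h => absurd h hZ

/-- if `1` is a combination, one of the members does not vanish -/
theorem _root_.Crest.Agent.X262.Blow.InI.exists_ne {ι : Type} [Fintype ι] {L : LP F} {s : ι → F}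
    {a b : F} (h : InI L.O s a) (hs : ∀ l, s l / b ∈ L.O) (h0 : L.v (a / b) ≠ 0) :
    ∃ l, L.v (s l / b) ≠ 0 := by
  by_contra h1
  push Not at h1
  obtain ⟨r, hr, rfl⟩ := h
  exact h0 (InI.v_eq (s := fun l => s l / b)
    ⟨r, hr, by simp only [Finset.sum_div, mul_div_assoc]⟩ hs h1)

theorem exists_unit (hx : x ∈ pat P i) (hZ : ¬ (lp x).O ≤ q.O) : ∃ j, ev (G.g i j) x ≠ 0 := by
  simpa using (inI_one (G := G) hx hZ).exists_ne (b := 1) (by simpa using g_mem hx) (by simp)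

theorem chB_le_of_unit (hx : x ∈ pat P i) (h0 : ev (G.g i j) x ≠ 0) :
    chB (P.A i) G.f j ≤ (lp x).O :=
  chB_le (A_le hx) fun k => G.g_div i k j ▸ LP.div_mem (g_mem hx k) h0

theorem eq_of_off (hL : L'.Of (chB (P.A i) G.f j)) (hx : x ∈ pat P i) (hd : (lp x).Dom L')
    (hZ : ¬ (lp x).O ≤ q.O) : lp x = L' := by
  refine eq_of_of hL hd (chB_le_of_unit hx ?_)
  have h1 : 1 / G.g i j ∈ L'.O := ((inI_one hx hZ).mono hd.le).div_mem fun k =>
    G.g_div i k j ▸ hL.le (u_mem_chB k)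
  rw [one_div] at h1
  rw [ev, ← hd.eq _ (g_mem hx j)]
  exact LP.ne_of_inv_mem (hd.le (g_mem hx j)) (G.g_ne i j) h1

theorem over_of (hL : L'.Of (chB (P.A i) G.f j)) (hx : x ∈ pat P i) (hd : (lp x).Dom L')
    (ha : Ad q x s w) : ∃ l, Over (lp x) L' s l ∧ L'.v (s l / G.g i j) ≠ 0 := by
  have h1 : ∀ a, s a / G.g i j ∈ L'.O := fun a => ((inI_s ha hx a).mono hd.le).div_mem fun k =>
    G.g_div i k j ▸ hL.le (u_mem_chB k)
  obtain ⟨l, hl⟩ := ((inI_g ha hx j).mono hd.le).exists_ne h1 (by simp [div_self (G.g_ne i j)])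
  have h2 : ∀ a, s a / s l ∈ L'.O := fun a =>
    div_div_div_cancel_right₀ (G.g_ne i j) (s a) (s l) ▸ LP.div_mem (h1 a) hl
  have h3 : ∀ k, G.g i k / s l ∈ chB (lp x).O s l := fun k =>
    ((inI_g ha hx k).mono le_chB).div_mem u_mem_chB
  refine ⟨l, ⟨hd, h2, (of_of_le hL (chB_le hd.le h2) (chB_le
    ((A_le hx).trans (le_chB.trans (le_lpAt _))) fun k => ?_)).loc⟩, hl⟩
  rw [← G.g_div i, ← div_div_div_cancel_right₀ (ha.s_ne l)]
  refine div_mem_resV _ (h3 k) (h3 j) ?_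
  rw [← inv_div, LP.v_inv hl]
  exact inv_ne_zero hl

/-- the converse: a point over `x` lies in a chart -/
theorem of_over (hx : x ∈ pat P i) (ha : Ad q x s w) {l : Fin c} (ho : Over (lp x) L' s l) :
    ∃ j, L'.Of (chB (P.A i) G.f j) ∧ L'.v (G.g i j / s l) ≠ 0 := by
  have h1 : ∀ k, G.g i k / s l ∈ L'.O := fun k => ((inI_g ha hx k).mono ho.dom.le).div_mem ho.mem
  obtain ⟨j, hj⟩ := ((inI_s ha hx l).mono ho.dom.le).exists_ne h1 (by simp [div_self (ha.s_ne l)])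
  have h2 : chB (P.A i) G.f j ≤ L'.O := chB_le ((A_le hx).trans ho.dom.le) fun k => by
    rw [← G.g_div i, ← div_div_div_cancel_right₀ (ha.s_ne l)]
    exact LP.div_mem (h1 k) hj
  have h5 := dom_resV h2
  have h6 := fun a b => div_mem_resV h2 (a := a) (b := b)
  have h7 : chB (P.A i) G.f j ≤ (lpAt (resV h2)).O := le_lpAt _
  refine ⟨j, of_of_le ho.of h2 ?_, hj⟩
  generalize lpAt (resV h2) = L₁ at h5 h6 h7 ⊢
  have h3 : (lp x).O ≤ L₁.O := fun f hf => by
    obtain ⟨a, ha', b, hb, h0, h4⟩ := (mem_lp_iff hx).1 hf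
    rw [← mul_div_cancel_right₀ f (LP.ne_zero_of_ne h0), h4]
    exact h6 _ _ (le_chB ha') (le_chB hb) (by rwa [ho.dom.eq _ (A_le hx hb)])
  have h4 : ∀ a, s a / G.g i j ∈ L₁.O := fun a =>
    ((inI_s ha hx a).mono h3).div_mem fun k => by
      rw [G.g_div i k j]
      exact h7 (u_mem_chB k)
  refine chB_le h3 fun a => ?_
  rw [← div_div_div_cancel_right₀ (G.g_ne i j)]
  refine LP.div_mem (h4 a) ?_
  rw [← h5.eq _ (h4 l), ← inv_div, LP.v_inv hj]
  exact inv_ne_zero hj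

variable (G)

/-- the indices of the coordinates of the blow-up -/
def seg : Fin ((P.N + 1) * G.M + P.N + 1) ≃ Fin (P.N + 1) × Fin (G.M + 1) :=
  (finProdFinEquiv (m := P.N + 1) (n := G.M + 1)).symm

/-- the coordinates of the blow-up -/
def Y (k : Fin ((P.N + 1) * G.M + P.N + 1)) : F := P.y (G.seg k).1 * G.f (G.seg k).2

theorem Y_div (k k' : Fin ((P.N + 1) * G.M + P.N + 1)) : G.Y k' / G.Y k =
    P.y (G.seg k').1 / P.y (G.seg k).1 * (G.f (G.seg k').2 / G.f (G.seg k).2) :=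
  mul_div_mul_comm _ _ _ _

theorem chart_Y (k : Fin ((P.N + 1) * G.M + P.N + 1)) :
    chart ℂ G.Y k = chB (P.A (G.seg k).1) G.f (G.seg k).2 := by
  refine le_antisymm (Algebra.adjoin_le ?_) (chB_le (Algebra.adjoin_le ?_) fun a => ?_)
  · rintro _ ⟨k', rfl⟩
    change G.Y k' / G.Y k ∈ _
    rw [Y_div]
    exact mul_mem (le_chB (div_mem_chart P.y _ _)) (u_mem_chB _)
  · rintro _ ⟨i, rfl⟩
    have h1 := div_mem_chart (k := ℂ) G.Y k (G.seg.symm (i, (G.seg k).2))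
    rwa [Y_div, Equiv.apply_symm_apply, div_self (G.ne _), mul_one] at h1
  · have h1 := div_mem_chart (k := ℂ) G.Y k (G.seg.symm ((G.seg k).1, a))
    rwa [Y_div, Equiv.apply_symm_apply, div_self (P.y_ne _), one_mul] at h1

/-- **the blow-up** -/
def bl (h : SmC P q c d) : PModel ℂ F where
  N := (P.N + 1) * G.M + P.N
  y := G.Y
  y_ne k := mul_ne_zero (P.y_ne _) (G.ne _)
  frac f := by
    obtain ⟨a, ha, b, hb, h0, h1⟩ := P.frac' (G.seg 0).1 f
    rw [chart_Y]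
    exact ⟨a, le_chB ha, b, le_chB hb, h0, h1⟩
  smooth k := by
    have : Algebra.FiniteType ℂ (chart ℂ G.Y k) :=
      Algebra.FiniteType.adjoin_of_finite (Set.finite_range _)
    refine smooth_of_coords fun φ => ?_
    have hL : (lpAt φ).Of (chB (P.A (G.seg k).1) G.f (G.seg k).2) :=
      G.chart_Y k ▸ LP.of_lpAt φ
    obtain ⟨x, hx, hd⟩ := exists_dom (i := (G.seg k).1) (lpAt φ) fun j =>
      hL.le (le_chB (div_mem_chart P.y _ j))
    rw [lo_eq]
    by_cases hZ : (lp x).O ≤ q.O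
    · obtain ⟨s, w, ha⟩ := h.crd x hZ
      obtain ⟨l, ho, -⟩ := over_of hL hx hd ha
      exact (ho.coI ha.co).exists_coords
    · obtain ⟨b⟩ := h.exists_basis
      exact ⟨_, eq_of_off hL hx hd hZ ▸ exists_coords_of_basis b x⟩

variable (h : SmC P q c d)

/-- the index of the coordinate `y i * f j` -/
def ix (i : Fin (P.N + 1)) (j : Fin (G.M + 1)) : Fin ((G.bl h).N + 1) := G.seg.symm (i, j)

theorem ix_surj (k : Fin ((G.bl h).N + 1)) : ∃ i j, G.ix h i j = k :=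
  ⟨(G.seg k).1, (G.seg k).2, G.seg.symm_apply_apply k⟩

theorem y_ix (i : Fin (P.N + 1)) (j : Fin (G.M + 1)) :
    (G.bl h).y (G.ix h i j) = P.y i * G.f j := by
  change P.y (G.seg (G.seg.symm (i, j))).1 * G.f (G.seg (G.seg.symm (i, j))).2 = _
  rw [Equiv.apply_symm_apply]

theorem A_ix (i : Fin (P.N + 1)) (j : Fin (G.M + 1)) :
    (G.bl h).A (G.ix h i j) = chB (P.A i) G.f j := by
  have h1 := G.chart_Y (G.seg.symm (i, j))
  rw [Equiv.apply_symm_apply] at h1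
  exact h1

/-- the morphism from the blow-up -/
def r : Mor (G.bl h) P where
  p := Plc.ofHom (AlgHom.id ℂ F)
  reg x' := by
    obtain ⟨k, hk⟩ := exists_pat x'
    obtain ⟨i, j, rfl⟩ := G.ix_surj h k
    exact ⟨i, fun j => ⟨Algebra.mem_top,
      A_le hk (G.A_ix h i _ ▸ le_chB (div_mem_chart P.y _ j))⟩⟩

theorem r_p : (G.r h).p = Plc.ofHom (AlgHom.id ℂ F) := rfl

variable {G h} {x' : Pts (G.bl h)}

theorem r_dom (x' : Pts (G.bl h)) : (lp ((G.r h).map x')).Dom (lp x') :=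
  ⟨fun _ hf => (G.r h).π_mem hf, fun _ hf => ((G.r h).ev_map hf).symm⟩

theorem r_eq (hd : (lp x).Dom (lp x')) : (G.r h).map x' = x :=
  (G.r h).map_eq ⟨fun _ hf => ⟨Algebra.mem_top, hd.le hf⟩, hd.eq⟩

theorem mem_pat_ix : x' ∈ pat (G.bl h) (G.ix h i j) ↔
    (G.r h).map x' ∈ pat P i ∧ ∀ k, G.f k / G.f j ∈ (lp x').O := by
  constructor
  · intro hx
    have h1 := A_le hx
    rw [A_ix] at h1
    exact ⟨mem_pat_of_dom (r_dom x') fun k => h1 (le_chB (div_mem_chart P.y _ k)),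
      fun k => h1 (u_mem_chB k)⟩
  · rintro ⟨h1, h2⟩
    refine mem_pat_of_mem fun k => ?_
    obtain ⟨i', j', rfl⟩ := G.ix_surj h k
    rw [y_ix, y_ix, mul_div_mul_comm]
    exact mul_mem ((r_dom x').le (y_mem h1 _)) (h2 _)

/-- one of the sections generates -/
theorem exists_gen (x' : Pts (G.bl h)) : ∃ j, ∀ k, G.f k / G.f j ∈ (lp x').O := by
  obtain ⟨k, hk⟩ := exists_pat x'
  obtain ⟨i, j, rfl⟩ := G.ix_surj h k
  exact ⟨j, (mem_pat_ix.1 hk).2⟩

theorem of_gen (hi : (G.r h).map x' ∈ pat P i) (hj : ∀ k, G.f k / G.f j ∈ (lp x').O) :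
    (lp x').Of (chB (P.A i) G.f j) := G.A_ix h i j ▸ lp_of (mem_pat_ix.2 ⟨hi, hj⟩)

theorem exists_of (x' : Pts (G.bl h)) (hi : (G.r h).map x' ∈ pat P i) :
    ∃ j, (lp x').Of (chB (P.A i) G.f j) := (exists_gen x').imp fun _ hj => of_gen hi hj

theorem exists_pt_of (hL : L'.Of (chB (P.A i) G.f j)) :
    ∃ x' ∈ pat (G.bl h) (G.ix h i j), lp x' = L' := by
  rw [← G.A_ix h] at hL
  obtain ⟨x', hx', hd⟩ := exists_dom (P := G.bl h) L' fun k => hL.le (div_mem_chart _ _ k)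
  exact ⟨x', hx', eq_of_of hL hd (A_le hx')⟩

/-- off the centre nothing happens -/
theorem lp_off (hZ : ¬ (lp ((G.r h).map x')).O ≤ q.O) : lp ((G.r h).map x') = lp x' := by
  obtain ⟨i, hi⟩ := exists_pat ((G.r h).map x')
  obtain ⟨j, hj⟩ := exists_of x' hi
  exact eq_of_off hj hi (r_dom x') hZ

theorem exists_off (hZ : ¬ (lp x).O ≤ q.O) :
    ∃ x' : Pts (G.bl h), lp x' = lp x ∧ (G.r h).map x' = x := by
  obtain ⟨i, hi⟩ := exists_pat x
  obtain ⟨j, hj⟩ := exists_unit (G := G) hi hZ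
  obtain ⟨x', -, h1⟩ := exists_pt_of (h := h) (of_of_le (lp_of hi) (chB_le_of_unit hi hj)
    (le_chB.trans (le_lpAt _)))
  exact ⟨x', h1, r_eq (h1 ▸ ⟨le_rfl, fun _ _ => rfl⟩)⟩

/-- the points over the centre -/
theorem exists_chart (ha : Ad q ((G.r h).map x') s w) :
    ∃ l, Over (lp ((G.r h).map x')) (lp x') s l := by
  obtain ⟨i, hi⟩ := exists_pat ((G.r h).map x')
  obtain ⟨j, hj⟩ := exists_of x' hi
  exact (over_of hj hi (r_dom x') ha).imp fun _ h => h.1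

theorem exists_on (ha : Ad q x s w) {l : Fin c} (ho : Over (lp x) L' s l) :
    ∃ x' : Pts (G.bl h), lp x' = L' ∧ (G.r h).map x' = x := by
  obtain ⟨i, hi⟩ := exists_pat x
  obtain ⟨j, hj, -⟩ := of_over (G := G) hi ha ho
  obtain ⟨x', -, h1⟩ := exists_pt_of (h := h) hj
  exact ⟨x', h1, r_eq (h1 ▸ ho.dom)⟩

/-- every direction occurs -/
theorem exists_dir (ha : Ad q x s w) {l : Fin c} {ξ : Fin c → ℂ} (hξ : ξ l = 1) :
    ∃ x' : Pts (G.bl h), (G.r h).map x' = x ∧ Over (lp x) (lp x') s l ∧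
      ∀ a, ev (s a / s l) x' = ξ a := by
  obtain ⟨L', ho, hv⟩ := exists_over ha.co.dual ha.ev_s hξ
  obtain ⟨x', rfl, h1⟩ := exists_on (G := G) (h := h) ha ho
  exact ⟨x', h1, ho, hv⟩

theorem r_surjective (hc : 0 < c) : Function.Surjective (G.r h).map := by
  intro x
  by_cases hZ : (lp x).O ≤ q.O
  · obtain ⟨s, w, ha⟩ := h.crd x hZ
    exact (exists_dir ha (l := ⟨0, hc⟩) (ξ := fun _ => 1) rfl).imp fun _ h => h.1
  · exact (exists_off hZ).imp fun _ h => h.2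

end Gens

end Crest.Agent.X262.Blow
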