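import Crest.Agent.X277.Strat.StB

/-!
# Row 262, BLOW (helper98), part Cen: smooth centres on a projective model

* `InI O s a`    : `a` is in the ideal of `O` generated by the family `s`;
* `CoI O t`      : coordinates with any finite index type;
* `Ad q x s w`   : `(s, w)` are coordinates at `x`, `s` generates the ideal of the centre of `q`;
* `SmC P q c d`  : the centre of the place `q` on `P` is smooth, of codimension `c`, dimension `d`;
* `SmC.model`, `SmC.mdl`, `Ad.coI` : the centre as a projective model, its coordinates.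
-/

set_option autoImplicit false
set_option linter.unusedSectionVars false

open Filter Topology

noncomputable section

namespace Crest.Agent.X262.Blow

open Crest.Agent.X277.Lef Crest.Agent.X277.Res.Out Crest.Agent.X277.AN.G1
  Crest.Agent.X277.Res.Log Crest.Agent.X277.Strat.Fac

variable {F κ : Type} [Field F] [Field κ] [Algebra ℂ F] [Algebra ℂ κ]

section Ideal

variable {ι ι' : Type} [Fintype ι] [Fintype ι'] {O O' : Subalgebra ℂ F} {s : ι → F} {a b : F}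

/-- `a` is in the ideal of `O` generated by the family `s` -/
def InI (O : Subalgebra ℂ F) (s : ι → F) (a : F) : Prop :=
  ∃ r : ι → F, (∀ l, r l ∈ O) ∧ a = ∑ l, r l * s l

theorem InI.zero : InI O s 0 := ⟨0, fun _ => zero_mem _, by simp⟩

theorem InI.add (ha : InI O s a) (hb : InI O s b) : InI O s (a + b) := by
  obtain ⟨r, hr, rfl⟩ := ha
  obtain ⟨r', hr', rfl⟩ := hb
  exact ⟨fun l => r l + r' l, fun l => add_mem (hr l) (hr' l), by
    simp only [add_mul, Finset.sum_add_distrib]⟩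

theorem InI.mul_left (hb : b ∈ O) (ha : InI O s a) : InI O s (b * a) := by
  obtain ⟨r, hr, rfl⟩ := ha
  exact ⟨fun l => b * r l, fun l => mul_mem hb (hr l), by simp only [Finset.mul_sum, mul_assoc]⟩

theorem InI.mul_right (ha : InI O s a) (hb : b ∈ O) : InI O s (a * b) :=
  mul_comm b a ▸ ha.mul_left hb

theorem InI.neg (ha : InI O s a) : InI O s (-a) := by
  simpa using ha.mul_left (neg_mem (one_mem O))

theorem InI.sub (ha : InI O s a) (hb : InI O s b) : InI O s (a - b) := by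
  rw [sub_eq_add_neg]; exact ha.add hb.neg

theorem InI.sum {τ : Type*} (T : Finset τ) {f : τ → F} (h : ∀ j ∈ T, InI O s (f j)) :
    InI O s (∑ j ∈ T, f j) :=
  Finset.sum_induction _ _ (fun _ _ => InI.add) InI.zero h

theorem InI.self (l : ι) : InI O s (s l) := by
  classical
  refine ⟨fun j => if j = l then 1 else 0, fun j => ?_, by simp⟩
  dsimp only
  split_ifs
  exacts [one_mem _, zero_mem _]

theorem InI.trans {s' : ι' → F} (ha : InI O s a) (h : ∀ l, InI O s' (s l)) : InI O s' a := by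
  obtain ⟨r, hr, rfl⟩ := ha
  exact InI.sum _ fun l _ => (h l).mul_left (hr l)

theorem InI.mono (ha : InI O s a) (h : O ≤ O') : InI O' s a := by
  obtain ⟨r, hr, rfl⟩ := ha
  exact ⟨r, fun l => h (hr l), rfl⟩

theorem InI.mem (ha : InI O s a) (h : ∀ l, s l ∈ O) : a ∈ O := by
  obtain ⟨r, hr, rfl⟩ := ha
  exact sum_mem fun l _ => mul_mem (hr l) (h l)

/-- division by a common divisor of the generators -/
theorem InI.div_mem {g : F} (ha : InI O s a) (h : ∀ l, s l / g ∈ O) : a / g ∈ O := by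
  obtain ⟨r, hr, rfl⟩ := ha
  rw [Finset.sum_div]
  exact sum_mem fun l _ => by rw [mul_div_assoc]; exact mul_mem (hr l) (h l)

theorem InI.v_eq {L : LP F} (ha : InI L.O s a) (h : ∀ l, s l ∈ L.O) (h0 : ∀ l, L.v (s l) = 0) :
    L.v a = 0 := by
  obtain ⟨r, hr, rfl⟩ := ha
  rw [LP.v_sum _ fun l _ => mul_mem (hr l) (h l)]
  exact Finset.sum_eq_zero fun l _ => by rw [L.v_mul (hr l) (h l), h0, mul_zero]

theorem InI.π_eq {q : Plc F κ} (ha : InI q.O s a) (h : ∀ l, s l ∈ q.O) (h0 : ∀ l, q.π (s l) = 0) :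
    q.π a = 0 := by
  obtain ⟨r, hr, rfl⟩ := ha
  rw [π_sum _ fun l _ => mul_mem (hr l) (h l)]
  exact Finset.sum_eq_zero fun l _ => by rw [q.π_mul (hr l) (h l), h0, mul_zero]

theorem inI_unique {t : F} [Unique ι] : InI O (fun _ : ι => t) a ↔ ∃ r ∈ O, a = r * t :=
  ⟨fun ⟨r, hr, h⟩ => ⟨r default, hr _, by simpa using h⟩,
    fun ⟨r, hr, h⟩ => ⟨fun _ => r, fun _ => hr, by simpa using h⟩⟩

variable [DecidableEq ι] [DecidableEq ι']

/-- coordinates with any finite index type -/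
structure CoI (O : Subalgebra ℂ F) (t : ι → F) : Prop where
  van : ∀ l, Van O (t l)
  gen : ∀ x, Van O x → InI O t x
  der : ∃ d : ι → Derivation ℂ F F, (∀ l, ∀ x ∈ O, d l x ∈ O) ∧
    ∀ l j, d l (t j) = if l = j then 1 else 0

theorem CoI.mem (h : CoI O s) (l : ι) : s l ∈ O := (h.van l).1

theorem CoI.reindex (h : CoI O s) (e : ι' ≃ ι) : CoI O (fun l => s (e l)) where
  van l := h.van _
  gen x hx := (h.gen x hx).trans fun l => by
    simpa using InI.self (O := O) (s := fun l => s (e l)) (e.symm l)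
  der := by
    obtain ⟨d, h1, h2⟩ := h.der
    exact ⟨fun l => d (e l), fun l => h1 _, fun l j => by simp [h2]⟩

theorem coI_iff {n : ℕ} {t : Fin n → F} : CoI O t ↔ Coords O t :=
  ⟨fun h => ⟨h.van, h.gen, by simpa using h.der⟩, fun h => ⟨h.van, h.gen, by simpa using h.der⟩⟩

theorem CoI.coords (h : CoI O s) {n : ℕ} (e : Fin n ≃ ι) : Coords O (fun l => s (e l)) :=
  coI_iff.1 (h.reindex e)

theorem CoI.exists_coords (h : CoI O s) : ∃ (n : ℕ) (t : Fin n → F), Coords O t :=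
  ⟨_, _, h.coords (Fintype.equivFin ι).symm⟩

theorem CoI.ne_zero (h : CoI O s) (l : ι) : s l ≠ 0 := by
  simpa using (h.coords (Fintype.equivFin ι).symm).ne_zero (Fintype.equivFin ι l)

theorem CoI.v_eq {L : LP F} (h : CoI L.O s) (l : ι) : L.v (s l) = 0 := (van_iff_v.1 (h.van l)).2

theorem CoI.primeElt {P : PModel ℂ F} {x : Pts P} (h : CoI (lp x).O s) (l : ι) :
    PrimeElt (lp x).O (s l) := by
  simpa using primeElt_coord (h.coords (Fintype.equivFin ι).symm) (Fintype.equivFin ι l)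

end Ideal

variable {P : PModel ℂ F} {c d : ℕ} {q : Plc F κ}

/-- `(s, w)` are coordinates at the point `x` of the centre of `q`, and `s` generates the ideal of
the centre -/
structure Ad (q : Plc F κ) (x : Pts P) (s : Fin c → F) (w : Fin d → F) : Prop where
  le : (lp x).O ≤ q.O
  co : CoI (lp x).O (Sum.elim s w)
  ker : ∀ a ∈ (lp x).O, q.π a = 0 ↔ InI (lp x).O s a

/-- the centre `Z = {x | (lp x).O ≤ q.O}` of `q` on `P` is smooth of codimension `c` and dimension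
`d`, `q.O` is its local ring and `κ` its function field -/
structure SmC (P : PModel ℂ F) (q : Plc F κ) (c d : ℕ) : Prop where
  surj : ∀ z, ∃ f ∈ q.O, q.π f = z
  ne : ∃ x : Pts P, (lp x).O ≤ q.O
  loc : ∀ x : Pts P, (lp x).O ≤ q.O → ∀ f ∈ q.O,
    ∃ a ∈ (lp x).O, ∃ c ∈ (lp x).O, q.π c ≠ 0 ∧ f * c = a
  crd : ∀ x : Pts P, (lp x).O ≤ q.O → ∃ (s : Fin c → F) (w : Fin d → F), Ad q x s w

/-- it is enough to have `loc` at one point -/
theorem loc_of_one {x₀ : Pts P} (h₀ : (lp x₀).O ≤ q.O)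
    (h : ∀ f ∈ q.O, ∃ a ∈ (lp x₀).O, ∃ c ∈ (lp x₀).O, q.π c ≠ 0 ∧ f * c = a)
    (x : Pts P) (hx : (lp x).O ≤ q.O) (f : F) (hf : f ∈ q.O) :
    ∃ a ∈ (lp x).O, ∃ c ∈ (lp x).O, q.π c ≠ 0 ∧ f * c = a := by
  obtain ⟨a, ha, c, hc, h0, h1⟩ := h f hf
  obtain ⟨a₁, ha₁, c₁, hc₁, h2, h3⟩ := two_pt h₀ hx ha
  obtain ⟨a₂, ha₂, c₂, hc₂, h4, h5⟩ := two_pt h₀ hx hc
  refine ⟨a₁ * c₂, mul_mem ha₁ hc₂, a₂ * c₁, mul_mem ha₂ hc₁, ?_, ?_⟩
  · rw [q.π_mul (hx ha₂) (hx hc₁), ← h5, q.π_mul (h₀ hc) (hx hc₂)]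
    exact mul_ne_zero (mul_ne_zero h0 (un_plc.1 h4)) (un_plc.1 h2)
  · rw [← h3, ← h5, ← h1]
    ring

/-- adapted coordinates from coordinates and an injective choice of indices -/
theorem exists_ad {n : ℕ} (hn : c + d = n) {x : Pts P} (hx : (lp x).O ≤ q.O) {t : Fin n → F}
    (ht : Coords (lp x).O t) {σ : Fin c → Fin n} (hσ : Function.Injective σ)
    (hk : ∀ a ∈ (lp x).O, q.π a = 0 ↔ InI (lp x).O (fun l => t (σ l)) a) :
    ∃ w : Fin d → F, Ad q x (fun l => t (σ l)) w := by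
  classical
  have h1 : Fintype.card {l // l ∉ Set.range σ} = d := by
    have h2 := Fintype.card_subtype_compl (fun l => l ∈ Set.range σ)
    rw [Fintype.card_fin, ← Fintype.card_congr (Equiv.ofInjective σ hσ), Fintype.card_fin] at h2
    omega
  let e : Fin c ⊕ Fin d ≃ Fin n :=
    (Equiv.sumCongr (Equiv.ofInjective σ hσ) (Fintype.equivFinOfCardEq h1).symm).trans
      (Equiv.sumCompl fun l => l ∈ Set.range σ)
  refine ⟨fun m => t (e (Sum.inr m)), hx, ?_, hk⟩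
  have h3 := (coI_iff.2 ht).reindex e
  convert h3 using 1
  funext l
  rcases l with l | l <;> rfl

namespace Ad

variable {x : Pts P} {s : Fin c → F} {w : Fin d → F} (h : Ad q x s w)
include h

theorem s_mem (l : Fin c) : s l ∈ (lp x).O := h.co.mem (Sum.inl l)

theorem w_mem (m : Fin d) : w m ∈ (lp x).O := h.co.mem (Sum.inr m)

theorem s_ne (l : Fin c) : s l ≠ 0 := h.co.ne_zero (Sum.inl l)

theorem ev_s (l : Fin c) : ev (s l) x = 0 := h.co.v_eq (Sum.inl l)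

theorem ev_w (m : Fin d) : ev (w m) x = 0 := h.co.v_eq (Sum.inr m)

theorem π_s (l : Fin c) : q.π (s l) = 0 := (h.ker _ (h.s_mem l)).2 (InI.self l)

theorem π_sum {r : Fin c ⊕ Fin d → F} (hr : ∀ l, r l ∈ (lp x).O) :
    q.π (∑ l, r l * Sum.elim s w l) = ∑ m, q.π (r (Sum.inr m)) * q.π (w m) := by
  rw [Crest.Agent.X277.Strat.Fac.π_sum _ fun l _ => h.le (mul_mem (hr l) (h.co.mem l))]
  simp only [q.π_mul (h.le (hr _)) (h.le (h.co.mem _)), Fintype.sum_sum_type, Sum.elim_inl,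
    Sum.elim_inr, h.π_s, mul_zero, Finset.sum_const_zero, zero_add]

end Ad

theorem SmC.der_mem (h : SmC P q c d) {x : Pts P} (hx : (lp x).O ≤ q.O) {δ : Derivation ℂ F F}
    (hδ : ∀ f ∈ (lp x).O, δ f ∈ (lp x).O) {f : F} (hf : f ∈ q.O) :
    δ f ∈ q.O ∧ ((∀ a ∈ (lp x).O, q.π a = 0 → q.π (δ a) = 0) → q.π f = 0 → q.π (δ f) = 0) := by
  obtain ⟨a, ha, c, hc, h0, h1⟩ := h.loc x hx f hf
  have h2 : δ f = (δ a - f * δ c) / c := by
    rw [← h1, Derivation.leibniz, smul_eq_mul, smul_eq_mul, eq_div_iff (Plc.ne_zero_of_ne h0)]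
    ring
  have h3 : δ a - f * δ c ∈ q.O := sub_mem (hx (hδ a ha)) (mul_mem hf (hx (hδ c hc)))
  refine ⟨h2 ▸ Plc.div_mem h3 h0, fun h4 h5 => ?_⟩
  rw [h2, Plc.π_div h3 h0, Plc.π_sub (hx (hδ a ha)) (mul_mem hf (hx (hδ c hc))),
    q.π_mul hf (hx (hδ c hc)), h5, h4 a ha (by rw [← h1, q.π_mul hf (hx hc), h5, zero_mul])]
  simp

namespace Ad

variable {x : Pts P} {s : Fin c → F} {w : Fin d → F} (h : Ad q x s w)
include h

theorem exists_dual (hq : SmC P q c d) : ∃ δ : Fin d → Derivation ℂ κ κ,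
    (∀ m, ∀ f ∈ (lp x).O, ∃ g ∈ (lp x).O, δ m (q.π f) = q.π g) ∧
      ∀ m m', δ m (q.π (w m')) = if m = m' then 1 else 0 := by
  obtain ⟨δ, h1, h2⟩ := h.co.der
  have h3 : ∀ m, ∀ a ∈ (lp x).O, q.π a = 0 → q.π (δ (Sum.inr m) a) = 0 := by
    intro m a ha h0
    obtain ⟨r, hr, rfl⟩ := (h.ker a ha).1 h0
    rw [map_sum, Crest.Agent.X277.Strat.Fac.π_sum _ fun e _ =>
      h.le (h1 _ _ (mul_mem (hr e) (h.s_mem e)))]
    refine Finset.sum_eq_zero fun e _ => ?_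
    have h4 : δ (Sum.inr m) (s e) = 0 := by simpa using h2 (Sum.inr m) (Sum.inl e)
    rw [Derivation.leibniz, h4, smul_zero, zero_add, smul_eq_mul,
      q.π_mul (h.le (h.s_mem e)) (h.le (h1 _ _ (hr e))), h.π_s, zero_mul]
  choose δ' hδ' using fun m => exists_der hq.surj (δ (Sum.inr m))
    (fun f hf => (hq.der_mem h.le (h1 _) hf).1) fun f hf => (hq.der_mem h.le (h1 _) hf).2 (h3 m)
  refine ⟨δ', fun m f hf => ⟨_, h1 _ f hf, hδ' m f (h.le hf)⟩, fun m m' => ?_⟩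
  have h4 : δ (Sum.inr m) (w m') = if m = m' then 1 else 0 := by
    simpa using h2 (Sum.inr m) (Sum.inr m')
  rw [hδ' m _ (h.le (h.w_mem _)), h4]
  split_ifs
  exacts [Plc.π_one _, Plc.π_zero _]

theorem coordsL (hq : SmC P q c d) {L : LP κ} (hL : OvL q L x) :
    Coords L.O fun m => q.π (w m) where
  van m := van_iff_v.2 ⟨hL.mem _ (h.w_mem _), (hL.ev_eq _ (h.w_mem _)).trans (h.ev_w _)⟩
  gen g hg := by
    obtain ⟨f, hf, rfl⟩ := hL.surj g hg.1
    obtain ⟨r, hr, rfl⟩ := h.co.gen f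
      (van_iff_v.2 ⟨hf, (hL.ev_eq f hf).symm.trans (van_iff_v.1 hg).2⟩)
    exact ⟨_, fun m => hL.mem _ (hr _), h.π_sum hr⟩
  der := by
    obtain ⟨δ, h1, h2⟩ := h.exists_dual hq
    refine ⟨δ, fun m g hg => ?_, h2⟩
    obtain ⟨f, hf, rfl⟩ := hL.surj g hg
    obtain ⟨g, hg', h3⟩ := h1 m f hf
    exact h3 ▸ hL.mem g hg'

/-- the coordinates `w` restrict to coordinates of the centre -/
theorem coords (hq : SmC P q c d) {Z : PModel ℂ κ} {z : Pts Z} (hz : Ov q z x) :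
    Coords (lp z).O fun m => q.π (w m) := h.coordsL hq hz.ovL

end Ad

theorem SmC.loc_A (h : SmC P q c d) {i : Fin (P.N + 1)} (hA : P.A i ≤ q.O) {f : F}
    (hf : f ∈ q.O) : ∃ a ∈ P.A i, ∃ c ∈ P.A i, q.π c ≠ 0 ∧ f * c = a := by
  obtain ⟨x, hx, hle⟩ := exists_pt_le hA
  obtain ⟨a, ha, c, hc, h0, h1⟩ := h.loc x hle f hf
  obtain ⟨a₁, ha₁, c₁, hc₁, h2, h3⟩ := (mem_lp_iff hx).1 ha
  obtain ⟨a₂, ha₂, c₂, hc₂, h4, h5⟩ := (mem_lp_iff hx).1 hc
  refine ⟨a₁ * c₂, mul_mem ha₁ hc₂, a₂ * c₁, mul_mem ha₂ hc₁, ?_, ?_⟩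
  · rw [q.π_mul (hA ha₂) (hA hc₁), ← h5, q.π_mul (hle hc) (hA hc₂)]
    exact mul_ne_zero (mul_ne_zero h0 (π_ne hle (un_iff.2 h4))) (π_ne hle (un_iff.2 h2))
  · rw [← h3, ← h5, ← h1]
    ring

/-- the model of a smooth centre -/
def SmC.modelAt (h : SmC P q c d) {i₀ : Fin (P.N + 1)} (h₀ : P.A i₀ ≤ q.O) : PModel ℂ κ where
  N := P.N
  y := yy q i₀
  y_ne := yy_ne
  frac z := by
    obtain ⟨f, hf, rfl⟩ := h.surj z
    obtain ⟨a, ha, c, hc, h0, h1⟩ := h.loc_A (A_rho_le h₀ 0) hf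
    rw [chart_yy h₀]
    exact ⟨_, ⟨⟨a, ha⟩, rfl⟩, _, ⟨⟨c, hc⟩, rfl⟩, h0, eq_div_of_mul_eq h0
      ((q.π_mul hf (A_rho_le h₀ 0 hc)).symm.trans (congrArg q.π h1))⟩
  smooth j := by
    rw [chart_yy h₀]
    have : Algebra.FiniteType ℂ (psi (A_rho_le h₀ j)).range :=
      Algebra.FiniteType.of_surjective _ (AlgHom.rangeRestrict_surjective _)
    refine smooth_of_coords fun φ => ?_
    obtain ⟨x, -, hx⟩ := exists_ovL _ φ
    obtain ⟨s, w, ha⟩ := h.crd x hx.le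
    exact ⟨d, _, lo_eq φ ▸ ha.coordsL h hx⟩

theorem SmC.mdlAt (h : SmC P q c d) {i₀ : Fin (P.N + 1)} (h₀ : P.A i₀ ≤ q.O) :
    Mdl q P (h.modelAt h₀) := by
  refine ⟨fun x' => ?_, fun x hx => ?_, P.y i₀, fun x' x hx i i' hi hi' => ?_⟩
  · obtain ⟨j, hj⟩ := exists_pat x'
    obtain ⟨φ, hφ⟩ := lpAt_cast (chart_yy h₀ j) (chr j x' hj)
    obtain ⟨x, -, hx⟩ := exists_ovL _ φ
    have h1 : lp x' = lpAt φ := (lp_eq hj).trans hφ.symm
    exact ⟨x, OvL.ov (h1 ▸ hx)⟩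
  · obtain ⟨i, hi⟩ := exists_pat x
    obtain ⟨φ, hφ⟩ := exists_chr ((rho_of_pat h₀ hx hi).symm ▸ hi : x ∈ pat P (rho q i₀ i)) hx
    obtain ⟨φ', hφ'⟩ := lpAt_cast (chart_yy h₀ i).symm φ
    obtain ⟨x', hx', h1⟩ := exists_pt (P := h.modelAt h₀) i φ'
    have h2 : chr (P := h.modelAt h₀) i x' hx' = φ' :=
      AlgHom.ext fun a => (ev_chr hx' a).symm.trans (h1 a)
    have h3 : lp x' = lpAt φ := (lp_eq hx').trans ((congrArg lpAt h2).trans hφ')
    exact ⟨x', OvL.ov (h3 ▸ hφ)⟩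
  · have h1 := rho_of_pat h₀ hx.le hi
    have h2 : x' ∈ pat (h.modelAt h₀) i := mem_pat_of_mem fun k => by
      have h4 := π_y_div h₀ i (rho q i₀ k)
      rw [h1] at h4
      exact (h4 ▸ hx.mem _ (y_mem hi _) : yy q i₀ k / yy q i₀ i ∈ _)
    have h3 := un_y h2 hi'
    change Un _ (yy q i₀ i / _) at h3
    rwa [yy, h1] at h3

theorem SmC.exists_chart (h : SmC P q c d) : ∃ i, P.A i ≤ q.O := by
  obtain ⟨x₀, hx₀⟩ := h.ne
  obtain ⟨i₀, hi₀⟩ := exists_pat x₀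
  exact ⟨i₀, (A_le hi₀).trans hx₀⟩

/-- **the smooth centre as a projective model** -/
def SmC.model (h : SmC P q c d) : PModel ℂ κ := h.modelAt h.exists_chart.choose_spec

theorem SmC.mdl (h : SmC P q c d) : Mdl q P h.model := h.mdlAt _

/-- the centre is closed -/
theorem exists_sepZ {i : Fin (P.N + 1)} {x : Pts P} (hx : x ∈ pat P i)
    (h : ¬ (lp x).O ≤ q.O) : ∃ a ∈ P.A i, ev a x ≠ 0 ∧ (P.A i ≤ q.O → q.π a = 0) := by
  by_cases hA : P.A i ≤ q.O
  · by_contra h1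
    refine h (le_of_ker hA hx fun a ha h0 => ?_)
    by_contra h2
    exact h1 ⟨a, ha, h2, fun _ => h0⟩
  · exact ⟨1, one_mem _, by simp [ev], fun h1 => absurd h1 hA⟩

theorem ev_eq_zero {x : Pts P} (hx : (lp x).O ≤ q.O) {a : F} (h : q.π a = 0) : ev a x = 0 := by
  by_contra h0
  exact π_ne hx (un_iff.2 h0) h

theorem isClosed_Z : IsClosed {x : Pts P | (lp x).O ≤ q.O} := by
  rw [← isOpen_compl_iff, isOpen_iff_mem_nhds]
  intro x hx
  obtain ⟨i, hi⟩ := exists_pat x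
  obtain ⟨a, -, h0, h1⟩ := exists_sepZ hi hx
  filter_upwards [(isOpen_pat P i).mem_nhds hi, (isOpen_ev_ne a).mem_nhds h0] with x' h2 h3 h4
  exact h3 (ev_eq_zero h4 (h1 ((A_le h2).trans h4)))

end Crest.Agent.X262.Blow
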