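import Crest.Agent.X262.Blow.Mod
import Crest.Agent.X277.Link.DvA

/-!
# Row 262, BLOW (helper98), part Exc: the valuation of the exceptional divisor

* `mR q`, `IsOrd q v` : `v` is the order of vanishing along the centre; `IsOrd.unique`;
* `isOrd_iff`        : `v` is the valuation of `s l` in the chart ring `q.O[s a / s l]`;
* `IsOrd.mem_iff_of_div` : recognition among valuation rings;
* `SmC.exists_ord`, `IsOrd.on_iff`, `IsOrd.eqn_over`, `IsOrd.eqn_g`, `IsOrd.on_bl`;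
* `IsOrd.isPD_bl`    : the prime divisors of the blow-up.
-/

set_option autoImplicit false
set_option linter.unusedSectionVars false

open WithZero Filter

noncomputable section

namespace Crest.Agent.X262.Blow

open Crest.Agent.X277.Lef Crest.Agent.X277.Res.Out Crest.Agent.X277.AN.G1
  Crest.Agent.X277.Res.Log Crest.Agent.X277.Strat.Fac MvPolynomial
open Crest.Agent.X277.Link (Eqn Loc Nrm IsPD lt_one_iff_le v_pow_unif v_div_le v_div_lt
  exp_neg_one_lt v_eq_one v_ne)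

variable {F κ : Type} [Field F] [Field κ] [Algebra ℂ F] [Algebra ℂ κ] {q : Plc F κ}
  {v v' : Valuation F ℤᵐ⁰}

/-- the maximal ideal of the ring of a place -/
def mR (q : Plc F κ) : Ideal q.O := RingHom.ker (q.hom : q.O →+* κ)

theorem mem_mR {a : q.O} : a ∈ mR q ↔ q.π a = 0 := Iff.rfl

theorem van_plc {a : F} : Van q.O a ↔ a ∈ q.O ∧ q.π a = 0 := by rw [Van, un_plc, not_not]

/-- `v` is the order of vanishing along the centre of `q` -/
structure IsOrd (q : Plc F κ) (v : Valuation F ℤᵐ⁰) : Prop where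
  iff : ∀ (k : ℕ) (a : q.O), v a ≤ exp (-(k : ℤ)) ↔ a ∈ mR q ^ k

theorem exists_exp {f : F} (h0 : f ≠ 0) (h : v f ≤ 1) : ∃ k : ℕ, v f = exp (-(k : ℤ)) := by
  have h1 : log (v f) ≤ 0 := (log_le_iff_le_exp (v_ne h0)).2 h
  exact ⟨(-log (v f)).toNat, by rw [Int.toNat_of_nonneg (by omega), neg_neg, exp_log (v_ne h0)]⟩

namespace IsOrd

theorem le_one (h : IsOrd q v) {a : F} (ha : a ∈ q.O) : v a ≤ 1 := by
  simpa using (h.iff 0 ⟨a, ha⟩).2 (by simp)

theorem lt_one_iff (h : IsOrd q v) {a : F} (ha : a ∈ q.O) : v a < 1 ↔ q.π a = 0 := by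
  have h1 := h.iff 1 ⟨a, ha⟩
  rw [pow_one, mem_mR] at h1
  rw [lt_one_iff_le]
  exact h1

theorem eq_one (h : IsOrd q v) {a : F} (ha : q.π a ≠ 0) : v a = 1 :=
  le_antisymm (h.le_one (Plc.mem_of_ne ha)) (not_lt.1 fun h1 =>
    ha ((h.lt_one_iff (Plc.mem_of_ne ha)).1 h1))

theorem triv (h : IsOrd q v) (c : ℂ) : v (algebraMap ℂ F c) ≤ 1 := h.le_one (algebraMap_mem _ c)

theorem unique (hfr : ∀ f : F, ∃ a ∈ q.O, ∃ c ∈ q.O, c ≠ 0 ∧ f = a / c) (h : IsOrd q v)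
    (h' : IsOrd q v') : v = v' := by
  have key : ∀ {v v' : Valuation F ℤᵐ⁰}, IsOrd q v → IsOrd q v' → ∀ a ∈ q.O, v a ≤ v' a := by
    intro v v' h h' a ha
    by_cases h0 : a = 0
    · simp [h0]
    obtain ⟨k, hk⟩ := exists_exp h0 (h'.le_one ha)
    exact hk ▸ (h.iff k ⟨a, ha⟩).2 ((h'.iff k ⟨a, ha⟩).1 hk.le)
  ext f
  obtain ⟨a, ha, c, hc, -, rfl⟩ := hfr f
  rw [map_div₀, map_div₀, le_antisymm (key h h' a ha) (key h' h a ha),
    le_antisymm (key h h' c hc) (key h' h c hc)]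

end IsOrd

section Par

variable {ι : Type} [Fintype ι] [DecidableEq ι] {s : ι → F} {l : ι}

theorem CoI.dual' {O : Subalgebra ℂ F} (h : CoI O s) : Dual O s := ⟨h.mem, h.der⟩

theorem CoI.π_eq (h : CoI q.O s) (a : ι) : q.π (s a) = 0 := (van_plc.1 (h.van a)).2

theorem CoI.span_eq (h : CoI q.O s) : Ideal.span (Set.range h.dual'.el) = mR q := by
  refine le_antisymm (Ideal.span_le.2 (by rintro _ ⟨a, rfl⟩; exact h.π_eq a)) fun a ha => ?_
  obtain ⟨r, hr, h1⟩ := h.gen a (van_plc.2 ⟨a.2, ha⟩)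
  have h2 : a = ∑ l, (⟨r l, hr l⟩ : q.O) * h.dual'.el l := Subtype.ext (by
    rw [h1, AddSubmonoidClass.coe_finsetSum]; rfl)
  rw [h2]
  exact Ideal.sum_mem _ fun l _ => Ideal.mul_mem_left _ _ (Ideal.subset_span ⟨l, rfl⟩)

theorem CoI.mem_pow (h : CoI q.O s) {k : ℕ} {a : q.O} : a ∈ mR q ^ k ↔
    ∃ H : MvPolynomial ι q.O, H.IsHomogeneous k ∧ eval h.dual'.el H = a := by
  rw [← h.span_eq, Ideal.mem_span_pow_iff_exists_isHomogeneous]

theorem CoI.mem_succ_iff (h : CoI q.O s) {k : ℕ} {H : MvPolynomial ι q.O}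
    (hH : H.IsHomogeneous k) :
    eval h.dual'.el H ∈ mR q ^ (k + 1) ↔ map (q.hom : q.O →+* κ) H = 0 := by
  refine ⟨fun h1 => h.dual'.map_eq_zero q.hom h.π_eq hH (h.span_eq ▸ h1), fun h1 => ?_⟩
  have h2 := Crest.Agent.X277.Res.P0.eval_mem_of_map_eq_zero (mR q) ⊥ h.dual'.el
    (by rw [h.span_eq]; exact le_sup_right) hH (by
      ext m
      have h3 := congrArg (coeff m) h1
      rw [coeff_map, coeff_zero] at h3
      rw [coeff_map, coeff_zero, Ideal.Quotient.eq_zero_iff_mem]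
      exact h3)
  rwa [bot_sup_eq, h.span_eq] at h2

theorem CoI.div_pow_mem (h : CoI q.O s) (l : ι) {k : ℕ} {a : q.O} (ha : a ∈ mR q ^ k) :
    (a : F) / s l ^ k ∈ chB q.O s l := by
  obtain ⟨H, hH, rfl⟩ := h.mem_pow.1 ha
  rw [h.dual'.coe_eval, evO_s (h.ne_zero l) hH,
    mul_div_cancel_left₀ _ (pow_ne_zero _ (h.ne_zero l))]
  exact evO_mem le_chB u_mem_chB H

/-- divisibility by `s l` in the chart ring -/
theorem CoI.div_mem_iff (h : CoI q.O s) {k : ℕ} {H : MvPolynomial ι q.O}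
    (hH : H.IsHomogeneous k) : evO q.O (fun a => s a / s l) H / s l ∈ chB q.O s l ↔
      map (q.hom : q.O →+* κ) H = 0 := by
  refine ⟨h.dual'.key q.hom h.π_eq hH, fun h1 => ?_⟩
  have h2 := h.div_pow_mem l ((h.mem_succ_iff hH).2 h1)
  rwa [h.dual'.coe_eval, evO_s (h.ne_zero l) hH, pow_succ,
    mul_div_mul_left _ _ (pow_ne_zero _ (h.ne_zero l))] at h2

theorem isOrd_of_eqn (h : CoI q.O s) (he : Eqn (chB q.O s l) v (s l)) : IsOrd q v := by
  have h0 := h.ne_zero l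
  refine ⟨fun k => ?_⟩
  have h1 : ∀ (k : ℕ) (a : q.O), a ∈ mR q ^ k → v a ≤ exp (-(k : ℤ)) := fun k a ha => by
    have h2 := he.loc.le _ (h.div_pow_mem l ha)
    rwa [v_div_le (pow_ne_zero _ h0), v_pow_unif he.val] at h2
  induction k with
  | zero => exact fun a => ⟨fun _ => by simp, h1 0 a⟩
  | succ k ih =>
    refine fun a => ⟨fun ha => ?_, h1 _ a⟩
    obtain ⟨H, hH, rfl⟩ := h.mem_pow.1
      ((ih a).1 (ha.trans (exp_le_exp.2 (by push_cast; omega))))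
    refine (h.mem_succ_iff hH).2 ((h.div_mem_iff (l := l) hH).1
      (he.div _ (evO_mem le_chB u_mem_chB H) ?_))
    rw [← mul_div_cancel_left₀ (evO q.O _ H) (pow_ne_zero k h0), ← evO_s h0 hH,
      ← h.dual'.coe_eval, v_div_lt (pow_ne_zero _ h0), v_pow_unif he.val]
    exact ha.trans_lt (exp_lt_exp.2 (by push_cast; omega))

theorem IsOrd.v_s (hv : IsOrd q v) (h : CoI q.O s) (l : ι) : v (s l) = exp (-1 : ℤ) := by
  refine le_antisymm (lt_one_iff_le.1 ((hv.lt_one_iff (h.mem l)).2 (h.π_eq l))) (not_lt.1 fun h1 => ?_)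
  obtain ⟨k, hk⟩ := exists_exp (h.ne_zero l) (hv.le_one (h.mem l))
  have h2 := (hv.iff 2 (h.dual'.el l)).1 (by
    change v (s l) ≤ _
    rw [hk, exp_lt_exp] at h1
    rw [hk, exp_le_exp]
    push_cast
    omega)
  have h3 := (h.mem_succ_iff (isHomogeneous_X _ l)).1 (by rwa [eval_X])
  rw [map_X] at h3
  exact X_ne_zero _ h3

theorem IsOrd.eqn (hfr : ∀ f : F, ∃ a ∈ q.O, ∃ c ∈ q.O, c ≠ 0 ∧ f = a / c) (hv : IsOrd q v)
    (h : CoI q.O s) (l : ι) : Eqn (chB q.O s l) v (s l) := by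
  have h0 := h.ne_zero l
  refine ⟨le_chB (h.mem l), hv.v_s h l, ⟨fun b hb => chB_le (W := vr v hv.triv)
    (fun a ha => hv.le_one ha) (fun a => ?_) hb, fun f hf => ?_⟩, fun b hb h1 => ?_⟩
  · rw [mem_vr, v_div_le h0, hv.v_s h, hv.v_s h]
  · obtain ⟨a, ha, b, hb, hb0, rfl⟩ := hfr f
    obtain ⟨k, hk⟩ := exists_exp hb0 (hv.le_one hb)
    refine ⟨b / s l ^ k, h.div_pow_mem l ((hv.iff k ⟨b, hb⟩).1 hk.le), ?_, ?_⟩
    · rw [map_div₀, v_pow_unif (hv.v_s h l), hk, div_self exp_ne_zero]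
    · rw [div_mul_div_comm, mul_comm b, mul_div_mul_right _ _ hb0]
      exact h.div_pow_mem l ((hv.iff k ⟨a, ha⟩).1 (hk ▸ (v_div_le hb0).1 hf))
  · obtain ⟨k, H, hH, rfl⟩ := exists_evO_homog h0 hb
    refine (h.div_mem_iff hH).2 ((h.mem_succ_iff hH).1 ((hv.iff _ _).1 ?_))
    rw [h.dual'.coe_eval, evO_s h0 hH, map_mul, v_pow_unif (hv.v_s h l)]
    refine (mul_le_mul' le_rfl (lt_one_iff_le.1 h1)).trans ?_
    rw [← exp_add, exp_le_exp]
    push_cast
    omega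

/-- recognition of the valuation ring of the exceptional divisor -/
theorem IsOrd.mem_iff_of_div (hfr : ∀ f : F, ∃ a ∈ q.O, ∃ c ∈ q.O, c ≠ 0 ∧ f = a / c)
    (hv : IsOrd q v) (h : CoI q.O s) {V : ValuationSubring F} (h1 : ∀ b ∈ chB q.O s l, b ∈ V)
    (h2 : (s l)⁻¹ ∉ V) (h3 : ∀ b ∈ chB q.O s l, V.valuation b < 1 → b / s l ∈ chB q.O s l)
    (f : F) : f ∈ V ↔ v f ≤ 1 := by
  have he := hv.eqn hfr h l
  have key : ∀ f, v f ≤ 1 → f ∈ V := by
    intro f hf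
    obtain ⟨c, hc, h4, h5⟩ := he.loc.den f hf
    have h6 : V.valuation c = 1 := le_antisymm ((V.valuation_le_one_iff c).2 (h1 c hc))
      (not_lt.1 fun h7 => ((he.lt_iff hc).2 (h3 c hc h7)).ne h4)
    have h7 := (V.valuation_le_one_iff _).2 (h1 _ h5)
    rwa [map_mul, h6, one_mul, V.valuation_le_one_iff] at h7
  refine ⟨fun hf => not_lt.1 fun h4 => h2 ?_, key f⟩
  have h0 : f ≠ 0 := by rintro rfl; simp at h4
  have h5 : v (f⁻¹ / s l) ≤ 1 := by
    rw [v_div_le he.ne, he.val, ← lt_one_iff_le, map_inv₀]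
    exact inv_lt_one_of_one_lt₀ h4
  have h6 := mul_mem hf (key _ h5)
  rwa [← mul_div_assoc, mul_inv_cancel₀ h0, one_div] at h6

end Par

variable {P : PModel ℂ F} {c d : ℕ} {x : Pts P} {s : Fin c → F} {w : Fin d → F}

theorem SmC.frac (h : SmC P q c d) (f : F) : ∃ a ∈ q.O, ∃ c ∈ q.O, c ≠ 0 ∧ f = a / c := by
  obtain ⟨x, hx⟩ := h.ne
  obtain ⟨a, ha, b, hb, h1⟩ := frac_lp x f
  exact ⟨a, hx ha, b, hx hb, h1⟩

/-- the equations of the centre are parameters of its local ring -/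
theorem Ad.coI (ha : Ad q x s w) (h : SmC P q c d) : CoI q.O s where
  van a := van_plc.2 ⟨ha.le (ha.s_mem a), ha.π_s a⟩
  gen f hf := by
    obtain ⟨hf1, hf2⟩ := van_plc.1 hf
    obtain ⟨a, ha', b, hb, h0, h1⟩ := h.loc x ha.le f hf1
    have h2 := (((ha.ker a ha').1 (by
      rw [← h1, q.π_mul hf1 (ha.le hb), hf2, zero_mul])).mono ha.le).mul_right (q.inv_mem h0)
    rwa [← h1, mul_inv_cancel_right₀ (Plc.ne_zero_of_ne h0)] at h2
  der := by
    obtain ⟨δ, h1, h2⟩ := ha.co.dual.der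
    exact ⟨δ, fun a f hf => (h.der_mem ha.le (h1 a) hf).1, h2⟩

theorem exists_den_chB (h : SmC P q c d) (hx : (lp x).O ≤ q.O) {l : Fin c} {b : F}
    (hb : b ∈ chB q.O s l) : ∃ e ∈ (lp x).O, q.π e ≠ 0 ∧ e * b ∈ chB (lp x).O s l := by
  obtain ⟨p, rfl⟩ := exists_evO hb
  clear hb
  induction p using MvPolynomial.induction_on with
  | C a =>
    obtain ⟨a', ha', e, he, h0, h1⟩ := h.loc x hx a a.2
    exact ⟨e, he, h0, by rw [eval₂Hom_C, mul_comm]; exact le_chB (h1 ▸ ha')⟩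
  | add p p' hp hp' =>
    obtain ⟨e, he, h0, h1⟩ := hp
    obtain ⟨e', he', h0', h1'⟩ := hp'
    refine ⟨e * e', mul_mem he he', by rw [q.π_mul (hx he) (hx he')]; exact mul_ne_zero h0 h0', ?_⟩
    rw [map_add, mul_add, mul_comm e, mul_assoc, mul_comm e' e, mul_assoc]
    exact add_mem (mul_mem (le_chB he') h1) (mul_mem (le_chB he) h1')
  | mul_X p a hp =>
    obtain ⟨e, he, h0, h1⟩ := hp
    exact ⟨e, he, h0, by
      rw [map_mul, eval₂Hom_X', ← mul_assoc]; exact mul_mem h1 (u_mem_chB a)⟩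

/-- the local valuation is the order along the centre -/
theorem isOrd_of_over (h : SmC P q c d) (ha : Ad q x s w) {l : Fin c} {L' : LP F}
    (ho : Over (lp x) L' s l) (he : Eqn L'.O v (s l)) : IsOrd q v := by
  have hs := ha.coI h
  have h1 : ∀ e ∈ (lp x).O, q.π e ≠ 0 → v e = 1 := by
    intro e he' h0
    refine le_antisymm (he.loc.le e (ho.dom.le he')) (not_lt.1 fun h2 => ?_)
    refine ho.notMem ha.co.dual (q.hom.comp (Subalgebra.inclusion ha.le)) ha.π_s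
      (fun a h3 => ev_eq_zero ha.le h3) (isHomogeneous_C _ ⟨e, he'⟩) ?_ ?_
    · rw [map_C]
      exact fun h3 => h0 (C_eq_zero.1 h3)
    · rw [eval₂Hom_C]
      exact he.div e (ho.dom.le he') h2
  have h2 : ∀ b ∈ chB q.O s l, v b ≤ 1 := by
    intro b hb
    obtain ⟨e, he', h0, h3⟩ := exists_den_chB h ha.le hb
    have h4 := he.loc.le _ (ho.le h3)
    rwa [map_mul, h1 e he' h0, one_mul] at h4
  refine isOrd_of_eqn (l := l) hs ⟨le_chB (hs.mem l), he.val,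
    (he.loc.of_loc ho.le fun b hb => ?_).mono (chB_mono ha.le) h2, fun b hb h3 => ?_⟩
  · obtain ⟨a, ha', e, he', h0, h4⟩ := ho.loc b hb
    exact ⟨e, he', LP.ne_zero_of_ne h0, L'.inv_mem h0, by rw [mul_comm, h4]; exact ha'⟩
  · obtain ⟨e, he', h0, h4⟩ := exists_den_chB h ha.le hb
    obtain ⟨a, ha', b', hb', h5, h6⟩ := ho.loc _ (he.div _ (ho.le h4) (by
      rwa [map_mul, h1 e he' h0, one_mul]))
    obtain ⟨k, H, hH, rfl⟩ := exists_evO_homog (ha.s_ne l) hb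
    obtain ⟨k', H', hH', h7⟩ := exists_evO_homog (ha.s_ne l) (chB_mono ha.le hb')
    have h8 := (hs.div_mem_iff (l := l) ((hH.C_mul ⟨e, ha.le he'⟩).mul hH')).1 (by
      rw [map_mul, map_mul, eval₂Hom_C, h7, mul_div_right_comm]
      exact chB_mono ha.le (h6 ▸ ha'))
    rw [map_mul, map_mul, map_C] at h8
    rcases mul_eq_zero.1 h8 with h9 | h9
    · exact (hs.div_mem_iff hH).2
        ((mul_eq_zero.1 h9).resolve_left fun h10 => h0 (C_eq_zero.1 h10))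
    · have h10 := h2 _ ((hs.div_mem_iff (l := l) hH').2 h9)
      rw [h7, v_div_le he.ne, v_eq_one (LP.ne_zero_of_ne h5) (he.loc.le _ (ho.le hb'))
        (he.loc.le _ (L'.inv_mem h5))] at h10
      exact absurd he.lt (not_lt.2 h10)

variable {G : Gens P q} {h : SmC P q c d} {x' : Pts (G.bl h)}

theorem exists_eqn_over (ha : Ad q x s w) {l : Fin c} (ho : Over (lp x) (lp x') s l) :
    ∃ v, Eqn (lp x').O v (s l) := by
  have h1 := (ho.coI ha.co).primeElt (Sum.inl l)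
  rw [Sum.elim_inl, bs_self] at h1
  exact (Crest.Agent.X277.Link.exists_eqn_of_primeElt h1).imp fun _ h => h.1

/-- **the exceptional valuation exists** -/
theorem SmC.exists_ord (h : SmC P q c d) (hc : 0 < c) : ∃ v, IsOrd q v := by
  obtain ⟨G⟩ := h.exists_gens hc
  obtain ⟨x, hx⟩ := h.ne
  obtain ⟨s, w, ha⟩ := h.crd x hx
  obtain ⟨x', -, ho, -⟩ := Gens.exists_dir (G := G) (h := h) ha (l := ⟨0, hc⟩)
    (ξ := fun _ => 1) rfl
  obtain ⟨v, hv⟩ := exists_eqn_over ha ho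
  exact ⟨v, isOrd_of_over h ha ho hv⟩

namespace IsOrd

variable (hv : IsOrd q v)
include hv

theorem eqn_over (ha : Ad q x s w) {l : Fin c} (ho : Over (lp x) (lp x') s l) :
    Eqn (lp x').O v (s l) := by
  obtain ⟨v', h1⟩ := exists_eqn_over ha ho
  rwa [hv.unique h.frac (isOrd_of_over h ha ho h1)]

theorem nrm (h : SmC P q c d) (hc : 0 < c) : Nrm v := by
  obtain ⟨x, hx⟩ := h.ne
  obtain ⟨s, w, ha⟩ := h.crd x hx
  exact ⟨_, hv.v_s (ha.coI h) ⟨0, hc⟩⟩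

/-- the centre of `v` on `P` -/
theorem on_iff (h : SmC P q c d) : On v x ↔ (lp x).O ≤ q.O := by
  refine ⟨fun h1 f hf => ?_, fun h1 f hf => hv.le_one (h1 hf)⟩
  obtain ⟨x₀, hx₀⟩ := h.ne
  obtain ⟨a, ha, b, hb, h2, h3⟩ := two_pt (W := vr v hv.triv) (x := x) (x₁ := x₀) h1
    (fun f hf => hv.le_one (hx₀ hf)) hf
  rw [← mul_div_cancel_right₀ f h2.1, h3]
  exact Plc.div_mem (hx₀ ha) fun h4 =>
    ((hv.lt_one_iff (hx₀ hb)).2 h4).ne (v_eq_one h2.1 h2.2.1 h2.2.2)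

/-- the exceptional divisor is the preimage of the centre -/
theorem on_bl : On v x' ↔ (lp ((G.r h).map x')).O ≤ q.O := by
  refine ⟨fun h1 => (hv.on_iff h).1 fun f hf => h1 f ((Gens.r_dom x').le hf), fun h1 => ?_⟩
  obtain ⟨s, w, ha⟩ := h.crd _ h1
  obtain ⟨l, ho⟩ := Gens.exists_chart ha
  exact (hv.eqn_over ha ho).loc.le

/-- the local equation of the exceptional divisor -/
theorem eqn_g (hx : On v x') {i : Fin (P.N + 1)} {j : Fin (G.M + 1)}
    (hi : (G.r h).map x' ∈ pat P i) (hj : ∀ k, G.f k / G.f j ∈ (lp x').O) :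
    Eqn (lp x').O v (G.g i j) := by
  obtain ⟨s, w, ha⟩ := h.crd _ (hv.on_bl.1 hx)
  obtain ⟨l, ho, h1⟩ := Gens.over_of (Gens.of_gen hi hj) hi (Gens.r_dom x') ha
  have h2 := (hv.eqn_over ha ho).of_unit ((lp x').inv_mem h1)
    (inv_ne_zero (LP.ne_zero_of_ne h1)) (by rw [inv_inv]; exact LP.mem_of_ne h1)
  rwa [inv_div, div_mul_cancel₀ _ (ha.s_ne l)] at h2

theorem ev_g_ne (hx : ¬ On v x') {i : Fin (P.N + 1)} {j : Fin (G.M + 1)}
    (hi : (G.r h).map x' ∈ pat P i) (hj : ∀ k, G.f k / G.f j ∈ (lp x').O) :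
    ev (G.g i j) x' ≠ 0 := by
  have h1 := mt hv.on_bl.2 hx
  obtain ⟨k, hk⟩ := Gens.exists_unit (G := G) hi h1
  rw [ev, Gens.lp_off h1] at hk
  have h2 := (lp x').v_mul (hj k) ((Gens.r_dom x').le (Gens.g_mem hi j))
  rw [← G.g_div i, div_mul_cancel₀ _ (G.g_ne i j)] at h2
  exact right_ne_zero_of_mul (h2 ▸ hk)

theorem exists_on_bl (G : Gens P q) (h : SmC P q c d) (hc : 0 < c) :
    ∃ x' : Pts (G.bl h), On v x' := by
  obtain ⟨x, hx⟩ := h.ne
  obtain ⟨x', rfl⟩ := Gens.r_surjective (G := G) (h := h) hc x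
  exact ⟨x', hv.on_bl.2 hx⟩

theorem isPD (G : Gens P q) (h : SmC P q c d) (hc : 0 < c) : IsPD (G.bl h) v := by
  obtain ⟨x', hx⟩ := hv.exists_on_bl G h hc
  obtain ⟨i, hi⟩ := exists_pat ((G.r h).map x')
  obtain ⟨j, hj⟩ := Gens.exists_gen x'
  exact (hv.eqn_g hx hi hj).isPD

/-- **the prime divisors of the blow-up** -/
theorem isPD_bl (G : Gens P q) (h : SmC P q c d) (hc : 0 < c) :
    IsPD (G.bl h) v' ↔ v' = v ∨ IsPD P v' := by
  constructor
  · intro h1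
    by_cases h2 : v' = v
    · exact Or.inl h2
    have := h1.neBot
    obtain ⟨x', h3, h4⟩ := (Crest.Agent.X277.Link.gen_on.and
      (Crest.Agent.X277.Link.gen_not_on (P := G.bl h) h1.nrm (hv.nrm h hc) h2)).exists
    exact Or.inr (Crest.Agent.X277.Link.isPD_of_loc h1.nrm
      (Gens.lp_off (mt hv.on_bl.2 h4) ▸ h1.loc_lp h3))
  · intro h1
    by_cases h2 : v' = v
    · exact h2 ▸ hv.isPD G h hc
    have h1 := h1.resolve_left h2
    have := h1.neBot
    obtain ⟨x, h3, h4⟩ := (Crest.Agent.X277.Link.gen_on.and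
      (Crest.Agent.X277.Link.gen_not_on (P := P) h1.nrm (hv.nrm h hc) h2)).exists
    obtain ⟨x', h5, -⟩ := Gens.exists_off (G := G) (h := h) (mt (hv.on_iff h).2 h4)
    exact Crest.Agent.X277.Link.isPD_of_loc h1.nrm (x := x') (h5 ▸ h1.loc_lp h3)

/-- in codimension at least two the divisor is exceptional -/
theorem not_isPD (h : SmC P q c d) (hc : 2 ≤ c) : ¬ IsPD P v := by
  intro h1
  obtain ⟨x, hx⟩ := h.ne
  obtain ⟨s, w, ha⟩ := h.crd x hx
  let a : Fin c := ⟨0, by omega⟩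
  let b : Fin c := ⟨1, by omega⟩
  obtain ⟨e, he, h2, h3⟩ := (h1.loc_lp ((hv.on_iff h).2 hx)).den (s b / s a) (by
    rw [v_div_le (ha.s_ne a), hv.v_s (ha.coI h), hv.v_s (ha.coI h)])
  rcases (ha.co.primeElt (Sum.inl a)).prime e he _ (ha.s_mem b) (by rwa [mul_div_assoc]) with h4 | h4
  · have h5 := hv.le_one (hx h4)
    rw [Sum.elim_inl, v_div_le (ha.s_ne a), h2, hv.v_s (ha.coI h)] at h5
    exact absurd exp_neg_one_lt (not_lt.2 h5)
  · have h5 := (ha.co.coords finSumFinEquiv.symm).div_notMem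
      (l := finSumFinEquiv (Sum.inl a)) (j := finSumFinEquiv (Sum.inl b)) (by simp [a, b])
    rw [Equiv.symm_apply_apply, Equiv.symm_apply_apply] at h5
    exact h5 h4

end IsOrd

end Crest.Agent.X262.Blow
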