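import Crest.Agent.X262.Blow.Cen

/-!
# Row 262, BLOW (helper98), part Loc: the local structure of a blow-up

* `chB O s l`   : the chart ring `O[s a / s l]`;
* `Dual O s`    : the family `s` of elements of `O` has dual derivations;
* `Dual.key`    : quasi-regularity; `Dual.exists_ext` : homomorphisms on `chB` with given values;
* `Over L L' s l` : `L'` is a closed point of the chart `l` of the blow-up of `L` in `(s)`;
* `Over.coI`    : coordinates upstairs; `exists_over` : all directions occur.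
-/

set_option autoImplicit false
set_option linter.unusedSectionVars false

noncomputable section

namespace Crest.Agent.X262.Blow

open Crest.Agent.X277.Lef Crest.Agent.X277.Res.Out Crest.Agent.X277.AN.G1
  Crest.Agent.X277.Res.Log Crest.Agent.X277.Strat.Fac MvPolynomial

section Poly

variable {σ R : Type*} [CommRing R]

theorem eval₂_hom_mul {S : Type*} [CommRing S] {p : MvPolynomial σ R} {n : ℕ}
    (hp : p.IsHomogeneous n) (g : R →+* S) (t : S) (u : σ → S) :
    eval₂ g (fun a => t * u a) p = t ^ n * eval₂ g u p := by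
  rw [eval₂_eq, eval₂_eq, Finset.mul_sum]
  refine Finset.sum_congr rfl fun m hm => ?_
  simp only [mul_pow, Finset.prod_mul_distrib, Finset.prod_pow_eq_pow_sum]
  rw [← hp.degree_eq_sum_deg_support hm]
  ring

/-- homogenisation with respect to the variable `l` -/
theorem exists_homog (l : σ) (p : MvPolynomial σ R) :
    ∃ (k : ℕ) (H : MvPolynomial σ R), H.IsHomogeneous k ∧ (X l - 1) ∣ H - p := by
  have h1 : ∀ k : ℕ, (X l - 1 : MvPolynomial σ R) ∣ X l ^ k - 1 := fun k => by
    simpa using sub_dvd_pow_sub_pow (X l : MvPolynomial σ R) 1 k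
  induction p using MvPolynomial.induction_on with
  | C a => exact ⟨0, C a, isHomogeneous_C _ _, by simp⟩
  | add p q hp hq =>
    obtain ⟨k, H, hH, h⟩ := hp
    obtain ⟨k', H', hH', h'⟩ := hq
    refine ⟨k + k', H * X l ^ k' + X l ^ k * H', (hH.mul (isHomogeneous_X_pow _ _)).add
      ((isHomogeneous_X_pow _ _).mul hH'), ?_⟩
    have h2 : H * X l ^ k' + X l ^ k * H' - (p + q) =
        H * (X l ^ k' - 1) + (X l ^ k - 1) * H' + (H - p) + (H' - q) := by ring
    rw [h2]
    exact dvd_add (dvd_add (dvd_add ((h1 _).mul_left _) ((h1 _).mul_right _)) h) h'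
  | mul_X p a hp =>
    obtain ⟨k, H, hH, h⟩ := hp
    exact ⟨k + 1, H * X a, hH.mul (isHomogeneous_X _ _), by rw [← sub_mul]; exact h.mul_right _⟩

theorem eval₂_eq_of_dvd {S : Type*} [CommRing S] {l : σ} {H p : MvPolynomial σ R}
    (h : (X l - 1) ∣ H - p) (g : R →+* S) {ξ : σ → S} (hξ : ξ l = 1) :
    eval₂ g ξ H = eval₂ g ξ p := by
  obtain ⟨r, hr⟩ := h
  have h1 := congrArg (eval₂Hom g ξ) hr
  rw [map_sub, map_mul, map_sub, eval₂Hom_X', hξ, map_one, sub_self, zero_mul, sub_eq_zero] at h1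
  exact h1

end Poly

variable {F K : Type} [Field F] [Algebra ℂ F] [Field K] [Algebra ℂ K]
  {ι : Type} [Fintype ι] [DecidableEq ι] {O W : Subalgebra ℂ F} {s : ι → F} {l : ι}

/-- the chart ring `O[s a / s l]` -/
def chB (O : Subalgebra ℂ F) (s : ι → F) (l : ι) : Subalgebra ℂ F :=
  O ⊔ Algebra.adjoin ℂ (Set.range fun a => s a / s l)

theorem le_chB : O ≤ chB O s l := le_sup_left

theorem u_mem_chB (a : ι) : s a / s l ∈ chB O s l :=
  (le_sup_right : _ ≤ chB O s l) (Algebra.subset_adjoin ⟨a, rfl⟩)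

theorem chB_le (h : O ≤ W) (hu : ∀ a, s a / s l ∈ W) : chB O s l ≤ W :=
  sup_le h (Algebra.adjoin_le (by rintro _ ⟨a, rfl⟩; exact hu a))

theorem chB_mono (h : O ≤ W) : chB O s l ≤ chB W s l := chB_le (h.trans le_chB) u_mem_chB

/-- evaluation of a polynomial over `O` -/
abbrev evO (O : Subalgebra ℂ F) (u : ι → F) : MvPolynomial ι O →+* F := eval₂Hom (algebraMap O F) u

theorem evO_mem {u : ι → F} (h : O ≤ W) (hu : ∀ a, u a ∈ W) (p : MvPolynomial ι O) :
    evO O u p ∈ W := by
  induction p using MvPolynomial.induction_on with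
  | C a => rw [eval₂Hom_C]; exact h a.2
  | add p q hp hq => rw [map_add]; exact add_mem hp hq
  | mul_X p a hp => rw [map_mul, eval₂Hom_X']; exact mul_mem hp (hu a)

theorem exists_evO {b : F} (hb : b ∈ chB O s l) :
    ∃ p : MvPolynomial ι O, evO O (fun a => s a / s l) p = b := by
  let T : Subalgebra ℂ F :=
    { carrier := {b | ∃ p : MvPolynomial ι O, evO O (fun a => s a / s l) p = b}
      mul_mem' := by
        rintro _ _ ⟨p, rfl⟩ ⟨q, rfl⟩
        exact ⟨p * q, map_mul _ _ _⟩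
      add_mem' := by
        rintro _ _ ⟨p, rfl⟩ ⟨q, rfl⟩
        exact ⟨p + q, map_add _ _ _⟩
      algebraMap_mem' := fun c => ⟨C (algebraMap ℂ O c), eval₂Hom_C _ _ _⟩ }
  exact chB_le (W := T) (fun a ha => ⟨C ⟨a, ha⟩, eval₂Hom_C _ _ _⟩)
    (fun a => ⟨X a, eval₂Hom_X' _ _ _⟩) hb

theorem exists_evO_homog (h0 : s l ≠ 0) {b : F} (hb : b ∈ chB O s l) :
    ∃ (k : ℕ) (H : MvPolynomial ι O), H.IsHomogeneous k ∧ evO O (fun a => s a / s l) H = b := by
  obtain ⟨p, rfl⟩ := exists_evO hb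
  obtain ⟨k, H, hH, h⟩ := exists_homog l p
  exact ⟨k, H, hH, eval₂_eq_of_dvd h _ (div_self h0)⟩

theorem evO_s (h0 : s l ≠ 0) {k : ℕ} {H : MvPolynomial ι O} (hH : H.IsHomogeneous k) :
    evO O s H = s l ^ k * evO O (fun a => s a / s l) H := by
  rw [coe_eval₂Hom, coe_eval₂Hom, ← eval₂_hom_mul hH]
  simp only [mul_div_cancel₀ _ h0]

/-- a place applied to a polynomial expression -/
theorem π_evO {p : Plc F K} (h : O ≤ p.O) {u : ι → F} (hu : ∀ a, u a ∈ p.O)
    (H : MvPolynomial ι O) : p.π (evO O u H) =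
      eval₂ (p.hom.comp (Subalgebra.inclusion h) : O →+* K) (fun a => p.π (u a)) H := by
  induction H using MvPolynomial.induction_on with
  | C a => rw [eval₂Hom_C, eval₂_C]; rfl
  | add H H' h1 h2 => rw [map_add, p.π_add (evO_mem h hu _) (evO_mem h hu _), h1, h2, eval₂_add]
  | mul_X H a h1 =>
    rw [map_mul, eval₂Hom_X', p.π_mul (evO_mem h hu _) (hu a), h1, eval₂_mul, eval₂_X]

theorem v_evO {L : LP F} (h : O ≤ L.O) {u : ι → F} (hu : ∀ a, u a ∈ L.O)
    (H : MvPolynomial ι O) : L.v (evO O u H) =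
      eval₂ (L.hom.comp (Subalgebra.inclusion h) : O →+* ℂ) (fun a => L.v (u a)) H := by
  induction H using MvPolynomial.induction_on with
  | C a => rw [eval₂Hom_C, eval₂_C]; rfl
  | add H H' h1 h2 => rw [map_add, L.v_add (evO_mem h hu _) (evO_mem h hu _), h1, h2, eval₂_add]
  | mul_X H a h1 =>
    rw [map_mul, eval₂Hom_X', L.v_mul (evO_mem h hu _) (hu a), h1, eval₂_mul, eval₂_X]

/-- the family `s` of elements of `O` has dual derivations -/
structure Dual (O : Subalgebra ℂ F) (s : ι → F) : Prop where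
  mem : ∀ a, s a ∈ O
  der : ∃ d : ι → Derivation ℂ F F, (∀ a, ∀ x ∈ O, d a x ∈ O) ∧
    ∀ a b, d a (s b) = if a = b then 1 else 0

namespace Dual

variable (h : Dual O s)
include h

/-- the members as elements of `O` -/
def el (a : ι) : O := ⟨s a, h.mem a⟩

theorem ne_zero (a : ι) : s a ≠ 0 := by
  obtain ⟨d, -, hd⟩ := h.der
  intro h0
  have h1 := hd a a
  rw [h0, map_zero, if_pos rfl] at h1
  exact zero_ne_one h1

theorem coe_eval (H : MvPolynomial ι O) : (eval h.el H : F) = evO O s H :=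
  (map_eval₂Hom (RingHom.id O) h.el (algebraMap O F) H).trans rfl

/-- initial forms -/
theorem map_eq_zero (ψ : O →ₐ[ℂ] K) (hψ : ∀ a, ψ (h.el a) = 0) {k : ℕ} {H : MvPolynomial ι O}
    (hH : H.IsHomogeneous k) (hm : eval h.el H ∈ Ideal.span (Set.range h.el) ^ (k + 1)) :
    map (ψ : O →+* K) H = 0 := by
  obtain ⟨d, hd, hd'⟩ := h.der
  have h1 : (RingHom.ker (ψ : O →+* K)).IsPrime := RingHom.ker_isPrime _
  have : Nontrivial (O ⧸ RingHom.ker (ψ : O →+* K)) := Ideal.Quotient.nontrivial_iff.2 h1.ne_top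
  have : CharZero (O ⧸ RingHom.ker (ψ : O →+* K)) :=
    charZero_of_injective_algebraMap (algebraMap ℂ _).injective
  have h2 := Crest.Agent.X277.Res.P0.map_eq_zero_of_mem (RingHom.ker (ψ : O →+* K)) ⊥ h.el
    (fun a => resDer O (d a) (hd a)) (fun a b => Subtype.ext (by
      rw [coe_resDer]
      change d a (s b) = _
      rw [hd']
      split_ifs <;> rfl)) (fun a f hf => by rw [Ideal.mem_bot.1 hf, map_zero]; exact zero_mem _)
    bot_le (Ideal.span_le.2 (by rintro _ ⟨a, rfl⟩; exact hψ a)) k H hH (Ideal.mem_sup_right hm)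
  ext m
  have h3 := congrArg (coeff m) h2
  rw [coeff_map, coeff_zero, Ideal.Quotient.eq_zero_iff_mem] at h3
  rw [coeff_map, coeff_zero]
  exact h3

/-- **quasi-regularity** -/
theorem key (ψ : O →ₐ[ℂ] K) (hψ : ∀ a, ψ (h.el a) = 0) {k : ℕ} {H : MvPolynomial ι O}
    (hH : H.IsHomogeneous k) (hb : evO O (fun a => s a / s l) H / s l ∈ chB O s l) :
    map (ψ : O →+* K) H = 0 := by
  have h0 := h.ne_zero l
  obtain ⟨k', H', hH', h1⟩ := exists_evO_homog h0 hb
  have h2 : eval h.el (H * X l ^ k') = h.el l ^ (k + 1) * eval h.el H' := by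
    apply Subtype.ext
    rw [h.coe_eval, MulMemClass.coe_mul, h.coe_eval, map_mul, map_pow, eval₂Hom_X', evO_s h0 hH,
      evO_s h0 hH', h1]
    change _ = s l ^ (k + 1) * _
    field_simp
    ring
  have h3 := h.map_eq_zero ψ hψ (hH.mul (isHomogeneous_X_pow l k')) (by
    rw [h2, show k + k' + 1 = (k + 1) + k' by ring, pow_add]
    exact Ideal.mul_mem_mul (Ideal.pow_mem_pow (Ideal.subset_span (Set.mem_range_self l)) _)
      ((Ideal.mem_span_pow_iff_exists_isHomogeneous _ _).2 ⟨H', hH', rfl⟩))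
  rw [map_mul, map_pow, map_X] at h3
  exact (mul_eq_zero.1 h3).resolve_right (pow_ne_zero _ (X_ne_zero _))

/-- homomorphisms on the chart ring with prescribed values -/
theorem exists_ext (ψ : O →ₐ[ℂ] K) (hψ : ∀ a, ψ (h.el a) = 0) {ξ : ι → K} (hξ : ξ l = 1) :
    ∃ Ψ : chB O s l →ₐ[ℂ] K, (∀ a : O, Ψ ⟨a, le_chB a.2⟩ = ψ a) ∧
      ∀ a, Ψ ⟨_, u_mem_chB a⟩ = ξ a := by
  let e : MvPolynomial ι O →+* chB O s l :=
    (evO O fun a => s a / s l).codRestrict _ (evO_mem le_chB u_mem_chB)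
  have he : Function.Surjective e := fun b => by
    obtain ⟨p, hp⟩ := exists_evO b.2
    exact ⟨p, Subtype.ext hp⟩
  have hk : RingHom.ker e ≤ RingHom.ker (eval₂Hom (ψ : O →+* K) ξ) := by
    intro p hp
    have h1 : evO O (fun a => s a / s l) p = 0 := congrArg Subtype.val hp
    obtain ⟨k, H, hH, h2⟩ := exists_homog l p
    have h3 := h.key (l := l) ψ hψ hH (by
      rw [coe_eval₂Hom, eval₂_eq_of_dvd h2 _ (div_self (h.ne_zero l)), ← coe_eval₂Hom, h1,
        zero_div]
      exact zero_mem _)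
    rw [RingHom.mem_ker, coe_eval₂Hom, ← eval₂_eq_of_dvd h2 _ hξ, ← eval_map, h3, map_zero]
  let g := RingHom.liftOfSurjective e he ⟨_, hk⟩
  have hg : ∀ p, g (e p) = eval₂Hom (ψ : O →+* K) ξ p := fun p =>
    RingHom.liftOfSurjective_comp_apply _ _ _ p
  have h1 : ∀ a : O, g ⟨a, le_chB a.2⟩ = ψ a := fun a => by
    have h2 : e (C a) = ⟨a, le_chB a.2⟩ := Subtype.ext (eval₂Hom_C _ _ _)
    rw [← h2, hg, eval₂Hom_C]
    rfl
  refine ⟨{ g with commutes' := fun c => (h1 (algebraMap ℂ O c)).trans (ψ.commutes c) }, h1,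
    fun a => ?_⟩
  have h2 : e (X a) = ⟨_, u_mem_chB a⟩ := Subtype.ext (eval₂Hom_X' _ _ _)
  change g _ = _
  rw [← h2, hg, eval₂Hom_X']

end Dual

theorem CoI.dual {ι' : Type} [Fintype ι'] [DecidableEq ι'] {w : ι' → F}
    (h : CoI O (Sum.elim s w)) : Dual O s where
  mem a := h.mem (Sum.inl a)
  der := by
    obtain ⟨d, h1, h2⟩ := h.der
    exact ⟨fun a => d (Sum.inl a), fun a => h1 _, fun a b => by
      simpa using h2 (Sum.inl a) (Sum.inl b)⟩

/-- `L'` is a closed point of the chart `l` of the blow-up of `L` in the ideal `(s)` -/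
structure Over (L L' : LP F) (s : ι → F) (l : ι) : Prop where
  dom : L.Dom L'
  mem : ∀ a, s a / s l ∈ L'.O
  loc : ∀ f ∈ L'.O, ∃ a ∈ chB L.O s l, ∃ b ∈ chB L.O s l, L'.v b ≠ 0 ∧ f * b = a

variable {L L' : LP F}

theorem Over.le (h : Over L L' s l) : chB L.O s l ≤ L'.O := chB_le h.dom.le h.mem

/-- every direction occurs -/
theorem exists_over (hs : Dual L.O s) (h0 : ∀ a, L.v (s a) = 0) {ξ : ι → ℂ} (hξ : ξ l = 1) :
    ∃ L' : LP F, Over L L' s l ∧ ∀ a, L'.v (s a / s l) = ξ a := by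
  obtain ⟨Ψ, h1, h2⟩ := hs.exists_ext L.hom h0 hξ
  refine ⟨lpAt Ψ, ⟨⟨le_chB.trans (le_lpAt Ψ), fun f hf => ?_⟩,
    fun a => le_lpAt Ψ (u_mem_chB a), ?_⟩, fun a => (lpAt_v Ψ ⟨_, u_mem_chB a⟩).trans (h2 a)⟩
  · exact (lpAt_v Ψ ⟨f, le_chB hf⟩).trans (h1 ⟨f, hf⟩)
  · rintro f ⟨a, b, hb, h3⟩
    exact ⟨a, a.2, b, b.2, by rwa [lpAt_v], h3⟩

/-- a local ring which dominates `L` and has the same direction dominates `L'` -/
theorem Over.dom_of (h : Over L L' s l) {L'' : LP F} (hd : L.Dom L'') (hm : ∀ a, s a / s l ∈ L''.O)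
    (hv : ∀ a, L''.v (s a / s l) = L'.v (s a / s l)) : L'.Dom L'' := by
  have h1 : ∀ b ∈ chB L.O s l, L''.v b = L'.v b := by
    intro b hb
    obtain ⟨p, rfl⟩ := exists_evO hb
    rw [v_evO hd.le hm, v_evO h.dom.le h.mem, funext hv]
    congr 1
    exact RingHom.ext fun a => (hd.eq a a.2).trans (h.dom.eq a a.2).symm
  have h2 : ∀ f ∈ L'.O, f ∈ L''.O ∧ L''.v f = L'.v f := by
    intro f hf
    obtain ⟨a, ha, b, hb, h0, h3⟩ := h.loc f hf
    have h4 : f = a / b := by rw [← h3, mul_div_cancel_right₀ _ (LP.ne_zero_of_ne h0)]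
    have h5 : L''.v b ≠ 0 := by rwa [h1 b hb]
    exact ⟨h4 ▸ LP.div_mem (chB_le hd.le hm ha) h5, by
      rw [h4, LP.v_div (chB_le hd.le hm ha) h5, LP.v_div (h.le ha) h0, h1 a ha, h1 b hb]⟩
  exact ⟨fun f hf => (h2 f hf).1, fun f hf => (h2 f hf).2⟩

/-- the point is determined by the direction -/
theorem Over.unique (h : Over L L' s l) {L'' : LP F} (h' : Over L L'' s l)
    (hv : ∀ a, L''.v (s a / s l) = L'.v (s a / s l)) : L' = L'' :=
  LP.ext' (h.dom_of h'.dom h'.mem hv) (h'.dom_of h.dom h.mem fun a => (hv a).symm).le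

/-- change of the chart -/
theorem Over.change (h : Over L L' s l) (h0 : s l ≠ 0) {l' : ι} (hl : L'.v (s l' / s l) ≠ 0) :
    Over L L' s l' := by
  have h0' : s l' ≠ 0 := fun h1 => hl (by rw [h1, zero_div, LP.v_zero])
  have h1 : ∀ a, s a / s l' = (s a / s l) / (s l' / s l) := fun a => by field_simp
  have h2 : ∀ a, s a / s l' ∈ L'.O := fun a => h1 a ▸ LP.div_mem (h.mem a) hl
  have h3 : L'.v (s l / s l') ≠ 0 := by
    rw [← inv_div, LP.v_inv hl]
    exact inv_ne_zero hl
  have h4 : ∀ b ∈ chB L.O s l, ∃ k : ℕ, b * (s l / s l') ^ k ∈ chB L.O s l' := by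
    intro b hb
    obtain ⟨k, H, hH, rfl⟩ := exists_evO_homog h0 hb
    refine ⟨k, ?_⟩
    have h5 : evO L.O (fun a => s a / s l) H * (s l / s l') ^ k =
        evO L.O (fun a => s a / s l') H := by
      have h6 := (evO_s h0 hH).symm.trans (evO_s h0' hH)
      rw [div_pow, ← mul_div_assoc, mul_comm, h6, mul_div_cancel_left₀ _ (pow_ne_zero _ h0')]
    exact h5 ▸ evO_mem le_chB u_mem_chB H
  refine ⟨h.dom, h2, fun f hf => ?_⟩
  obtain ⟨a, ha, b, hb, h5, h6⟩ := h.loc f hf
  obtain ⟨k, hk⟩ := h4 a ha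
  obtain ⟨k', hk'⟩ := h4 b hb
  refine ⟨_, mul_mem hk (pow_mem (u_mem_chB l) k'), _, mul_mem hk' (pow_mem (u_mem_chB l) k),
    ?_, by rw [← h6]; ring⟩
  rw [L'.v_mul (mul_mem (h.le hb) (pow_mem (h2 l) _)) (pow_mem (h2 l) _),
    L'.v_mul (h.le hb) (pow_mem (h2 l) _), LP.v_pow (h2 l), LP.v_pow (h2 l)]
  exact mul_ne_zero (mul_ne_zero h5 (pow_ne_zero _ h3)) (pow_ne_zero _ h3)

/-- a derivation which is regular on generators is regular -/
theorem Over.der_mem (h : Over L L' s l) {δ : Derivation ℂ F F} (h1 : ∀ f ∈ L.O, δ f ∈ L'.O)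
    (h2 : ∀ a, δ (s a / s l) ∈ L'.O) {f : F} (hf : f ∈ L'.O) : δ f ∈ L'.O := by
  have h3 : ∀ b ∈ chB L.O s l, δ b ∈ L'.O := by
    intro b hb
    obtain ⟨p, rfl⟩ := exists_evO hb
    clear hb
    induction p using MvPolynomial.induction_on with
    | C a => rw [eval₂Hom_C]; exact h1 a a.2
    | add p q hp hq => rw [map_add, map_add]; exact add_mem hp hq
    | mul_X p a hp =>
      rw [map_mul, eval₂Hom_X', Derivation.leibniz, smul_eq_mul, smul_eq_mul]
      exact add_mem (mul_mem (evO_mem h.dom.le h.mem p) (h2 a)) (mul_mem (h.mem a) hp)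
  obtain ⟨a, ha, b, hb, h0, h4⟩ := h.loc f hf
  have h5 : δ f = (δ a - f * δ b) / b := by
    rw [← h4, Derivation.leibniz, smul_eq_mul, smul_eq_mul, eq_div_iff (LP.ne_zero_of_ne h0)]
    ring
  exact h5 ▸ LP.div_mem (sub_mem (h3 a ha) (mul_mem hf (h3 b hb))) h0

/-- the new coordinates -/
def bs (L' : LP F) (s : ι → F) (l a : ι) : F :=
  if a = l then s l else s a / s l - algebraMap ℂ F (L'.v (s a / s l))

theorem bs_self : bs L' s l l = s l := if_pos rfl

theorem bs_ne {a : ι} (h : a ≠ l) :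
    bs L' s l a = s a / s l - algebraMap ℂ F (L'.v (s a / s l)) := if_neg h

/-- **coordinates on the blow-up** -/
theorem Over.coI {ι' : Type} [Fintype ι'] [DecidableEq ι'] {w : ι' → F} (h : Over L L' s l)
    (hc : CoI L.O (Sum.elim s w)) : CoI L'.O (Sum.elim (bs L' s l) w) := by
  have h0 : s l ≠ 0 := hc.dual.ne_zero l
  have hvan : ∀ j, Van L'.O (Sum.elim (bs L' s l) w j) := by
    have h1 : ∀ j, Van L'.O (Sum.elim s w j) := fun j =>
      van_iff_v.2 ⟨h.dom.le (hc.mem j), (h.dom.eq _ (hc.mem j)).trans (hc.v_eq j)⟩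
    rintro (a | b)
    · rw [Sum.elim_inl]
      by_cases ha : a = l
      · rw [ha, bs_self]; exact h1 (Sum.inl l)
      · rw [bs_ne ha]
        exact van_iff_v.2 ⟨sub_mem (h.mem a) (algebraMap_mem _ _), by
          rw [LP.v_sub (h.mem a) (algebraMap_mem _ _), L'.v_alg, sub_self]⟩
    · exact h1 (Sum.inr b)
  refine ⟨hvan, fun f hf => ?_, ?_⟩
  · have h1 : ∀ b ∈ chB L.O s l,
        InI L'.O (Sum.elim (bs L' s l) w) (b - algebraMap ℂ F (L'.v b)) := by
      intro b hb
      obtain ⟨p, rfl⟩ := exists_evO hb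
      clear hb
      induction p using MvPolynomial.induction_on with
      | C a =>
        rw [eval₂Hom_C]
        change InI _ _ ((a : F) - algebraMap ℂ F (L'.v a))
        rw [h.dom.eq a a.2]
        refine ((hc.gen _ (van_iff_v.2 ⟨sub_mem a.2 (algebraMap_mem _ _), by
          rw [LP.v_sub a.2 (algebraMap_mem _ _), L.v_alg, sub_self]⟩)).mono h.dom.le).trans ?_
        rintro (a | b)
        · have h2 := (InI.self (O := L'.O) (s := Sum.elim (bs L' s l) w) (Sum.inl l)).mul_left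
            (h.mem a)
          rwa [Sum.elim_inl, bs_self, div_mul_cancel₀ _ h0] at h2
        · exact InI.self (O := L'.O) (s := Sum.elim (bs L' s l) w) (Sum.inr b)
      | add p q hp hq =>
        rw [map_add, L'.v_add (evO_mem h.dom.le h.mem p) (evO_mem h.dom.le h.mem q), map_add,
          add_sub_add_comm]
        exact hp.add hq
      | mul_X p a hp =>
        have h2 : InI L'.O (Sum.elim (bs L' s l) w)
            (s a / s l - algebraMap ℂ F (L'.v (s a / s l))) := by
          by_cases ha : a = l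
          · rw [ha, div_self h0, LP.v_one, map_one, sub_self]; exact InI.zero
          · rw [← bs_ne ha]; exact InI.self (s := Sum.elim (bs L' s l) w) (Sum.inl a)
        rw [map_mul, eval₂Hom_X', L'.v_mul (evO_mem h.dom.le h.mem p) (h.mem a), map_mul]
        have h3 := (hp.mul_right (h.mem a)).add (h2.mul_left
          (algebraMap_mem L'.O (L'.v (evO L.O (fun a => s a / s l) p))))
        convert h3 using 1
        ring
    obtain ⟨hf1, hf2⟩ := van_iff_v.1 hf
    obtain ⟨a, ha, b, hb, h2, h3⟩ := h.loc f hf1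
    have h4 := h1 a ha
    rw [← h3, L'.v_mul hf1 (h.le hb), hf2, zero_mul, map_zero, sub_zero] at h4
    have h5 := h4.mul_right (L'.inv_mem h2)
    rwa [mul_inv_cancel_right₀ (LP.ne_zero_of_ne h2)] at h5
  · obtain ⟨d, hd, hd'⟩ := hc.der
    have hs : ∀ j a, d j (s a) = if j = Sum.inl a then 1 else 0 := fun j a => hd' j (Sum.inl a)
    have hw : ∀ j b, d j (w b) = if j = Sum.inr b then 1 else 0 := fun j b => hd' j (Sum.inr b)
    have hu : ∀ (δ : Derivation ℂ F F) a, δ (s a / s l) = (δ (s a) - s a / s l * δ (s l)) / s l := by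
      intro δ a
      rw [Derivation.leibniz_div]
      simp only [smul_eq_mul]
      field_simp
    let E : Derivation ℂ F F := ∑ a, (s a / s l) • d (Sum.inl a)
    have hE : ∀ f, E f = ∑ a, s a / s l * d (Sum.inl a) f := fun f => by
      have h1 := congrFun (map_sum (Derivation.coeFnAddMonoidHom (R := ℂ) (A := F) (M := F))
        (fun a => (s a / s l) • d (Sum.inl a)) Finset.univ) f
      rw [Finset.sum_apply] at h1
      exact h1
    have hEs : ∀ a, E (s a) = s a / s l := fun a => by simp [hE, hs]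
    have hEu : ∀ a, E (s a / s l) = 0 := fun a => by
      rw [hu, hEs, hEs, div_self h0, mul_one, sub_self, zero_div]
    have hau : ∀ a, a ≠ l → ∀ a', (s l • d (Sum.inl a)) (s a' / s l) = if a = a' then 1 else 0 := by
      intro a ha a'
      rw [Derivation.smul_apply, hu, hs, hs, smul_eq_mul, mul_div_cancel₀ _ h0]
      simp [ha]
    have hbu : ∀ b a', d (Sum.inr b) (s a' / s l) = 0 := fun b a' => by simp [hu, hs]
    refine ⟨Sum.elim (fun a => if a = l then E else s l • d (Sum.inl a)) fun b => d (Sum.inr b),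
      ?_, ?_⟩
    · rintro (a | b) f hf
      · rw [Sum.elim_inl]
        split_ifs with ha
        · refine h.der_mem (fun f hf => ?_) (fun a' => hEu a' ▸ zero_mem _) hf
          rw [hE]
          exact sum_mem fun a' _ => mul_mem (h.mem a') (h.dom.le (hd _ f hf))
        · refine h.der_mem (fun f hf => h.dom.le (mul_mem (hc.mem (Sum.inl l)) (hd _ f hf)))
            (fun a' => ?_) hf
          rw [hau a ha]
          split_ifs
          exacts [one_mem _, zero_mem _]
      · exact h.der_mem (fun f hf => h.dom.le (hd _ f hf)) (fun a' => hbu b a' ▸ zero_mem _) hf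
    · rintro (a | b) (a' | b')
      · simp only [Sum.elim_inl, Sum.inl.injEq]
        by_cases ha' : a' = l
        · rw [ha', bs_self]
          split_ifs with ha
          · rw [hEs, div_self h0]
          · simp [hs, ha]
        · rw [bs_ne ha', map_sub, Derivation.map_algebraMap, sub_zero]
          by_cases ha : a = l
          · rw [if_pos ha, hEu, if_neg (fun h1 : a = a' => ha' (h1 ▸ ha))]
          · rw [if_neg ha, hau a ha]
      · simp only [Sum.elim_inl, Sum.elim_inr]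
        split_ifs with ha h1 h1
        · cases h1
        · simp [hE, hw]
        · cases h1
        · simp [hw]
      · simp only [Sum.elim_inl, Sum.elim_inr]
        rw [if_neg (by simp)]
        by_cases ha' : a' = l
        · rw [ha', bs_self, hs, if_neg (by simp)]
        · rw [bs_ne ha', map_sub, Derivation.map_algebraMap, sub_zero, hbu]
      · exact hw _ _

/-- a form with a nonzero reduction is not divisible by the equation of the exceptional divisor -/
theorem Over.notMem (h : Over L L' s l) (hs : Dual L.O s) (ψ : L.O →ₐ[ℂ] K)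
    (hψ : ∀ a, ψ (hs.el a) = 0) (hker : ∀ a, ψ a = 0 → L.v a = 0) {k : ℕ}
    {H : MvPolynomial ι L.O} (hH : H.IsHomogeneous k) (hne : map (ψ : L.O →+* K) H ≠ 0) :
    evO L.O (fun a => s a / s l) H / s l ∉ L'.O := by
  intro hm
  obtain ⟨a, ha, b, hb, h0, h1⟩ := h.loc _ hm
  obtain ⟨k', H', hH', rfl⟩ := exists_evO_homog (hs.ne_zero l) hb
  have h2 := hs.key (l := l) ψ hψ (hH.mul hH') (by
    rw [map_mul, mul_div_right_comm, h1]; exact ha)
  rw [map_mul] at h2
  have h3 := (mul_eq_zero.1 h2).resolve_left hne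
  apply h0
  rw [v_evO h.dom.le h.mem, ← eval_map]
  have h4 : map (L'.hom.comp (Subalgebra.inclusion h.dom.le) : L.O →+* ℂ) H' = 0 := by
    ext m
    have h5 := congrArg (coeff m) h3
    rw [coeff_map, coeff_zero] at h5
    rw [coeff_map, coeff_zero]
    exact (h.dom.eq _ (coeff m H').2).trans (hker _ h5)
  rw [h4, map_zero]

end Crest.Agent.X262.Blow
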