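import Crest.Agent.X262.Blow.Exc

/-!
# Row 262, BLOW (helper98), part PB: the exceptional divisor is a projective bundle

* `Md q P Z`        : `Z` is a model of the centre of `q` on `P`; `Md.mor` the embedding;
* `PBun π lam c`    : `(π, lam)` identifies `E` with the projectivisation of a subbundle of rank `c`
                      of a trivial bundle on `Z`;
* `ExcP v p`        : `p` is the residue map of the valuation ring of `v`; `exists_excP`;
* `smC_exc`         : the exceptional divisor is a smooth centre of codimension one;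
* `iota`, `prj`, `prj_comm` : the projection of the exceptional divisor to the centre;
* `pbun_exc`, `ind_exc`, `gen_exc` : the bundle structure, the function field.
-/

set_option autoImplicit false
set_option linter.unusedSectionVars false

open WithZero Filter

noncomputable section

namespace Crest.Agent.X262.Blow

open Crest.Agent.X277.Lef Crest.Agent.X277.Res.Out Crest.Agent.X277.AN.G1
  Crest.Agent.X277.Res.Log Crest.Agent.X277.Strat.Fac MvPolynomial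
open Crest.Agent.X277.Link (Eqn Loc Nrm IsPD v_div_le v_eq_one)

variable {F κ K : Type} [Field F] [Field κ] [Field K] [Algebra ℂ F] [Algebra ℂ κ] [Algebra ℂ K]
  {q : Plc F κ} {p : Plc F K} {v : Valuation F ℤᵐ⁰} {P : PModel ℂ F} {Z : PModel ℂ κ}
  {c d : ℕ}

/-- `Z` is a model of the centre of `q` on `P` -/
structure Md (q : Plc F κ) (P : PModel ℂ F) (Z : PModel ℂ κ) : Prop where
  up : ∀ z : Pts Z, ∃ x : Pts P, Ov q z x
  down : ∀ x : Pts P, (lp x).O ≤ q.O → ∃ z : Pts Z, Ov q z x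

theorem md_of_mdl (h : Mdl q P Z) : Md q P Z := ⟨h.up, h.down⟩

theorem SmC.md (h : SmC P q c d) : Md q P h.model := md_of_mdl h.mdl

namespace Md

variable (h : Md q P Z)

/-- the embedding of the centre -/
def mor : Mor Z P where
  p := q
  reg z := by
    obtain ⟨x, hx⟩ := h.up z
    obtain ⟨i, hi⟩ := exists_pat x
    exact ⟨i, fun j => ⟨hx.le (y_mem hi j), hx.mem _ (y_mem hi j)⟩⟩

theorem mor_p : h.mor.p = q := rfl

theorem map_eq {z : Pts Z} {x : Pts P} (hx : Ov q z x) : h.mor.map z = x := h.mor.map_eq hx.dom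

theorem ov (z : Pts Z) : Ov q z (h.mor.map z) := by
  obtain ⟨x, hx⟩ := h.up z
  rwa [h.map_eq hx]

theorem injective : Function.Injective h.mor.map := fun z z' e =>
  (h.ov z).eq_up (e ▸ h.ov z')

theorem mem_range {x : Pts P} : x ∈ Set.range h.mor.map ↔ (lp x).O ≤ q.O :=
  ⟨fun ⟨z, hz⟩ => hz ▸ (h.ov z).le, fun hx => (h.down x hx).imp fun _ hz => h.map_eq hz⟩

end Md

/-- the image of a subalgebra under a place -/
def img (p : Plc κ K) (O : Subalgebra ℂ κ) : Subalgebra ℂ K := Algebra.adjoin ℂ (p.π '' O)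

theorem mem_img {p : Plc κ K} {O : Subalgebra ℂ κ} {a : κ} (ha : a ∈ O) : p.π a ∈ img p O :=
  Algebra.subset_adjoin ⟨a, ha, rfl⟩

theorem img_le {p : Plc κ K} {O : Subalgebra ℂ κ} {W : Subalgebra ℂ K}
    (h : ∀ a ∈ O, p.π a ∈ W) : img p O ≤ W :=
  Algebra.adjoin_le (by rintro _ ⟨a, ha, rfl⟩; exact h a ha)

theorem img_ofHom (ι : κ →ₐ[ℂ] K) (O : Subalgebra ℂ κ) : img (Plc.ofHom ι) O = O.map ι :=
  le_antisymm (img_le fun a ha => ⟨a, ha, rfl⟩) (by rintro _ ⟨a, ha, rfl⟩; exact mem_img ha)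

/-- `(π, lam)` identifies `E` with the projectivisation of a subbundle of rank `c` of the trivial
bundle; locally the subbundle is the image of the matrix `R` -/
structure PBun {E : PModel ℂ K} {Z : PModel ℂ κ} (π : Mor E Z) {M : ℕ} (lam : Fin (M + 1) → K)
    (c : ℕ) : Prop where
  pos : 0 < c
  bpf : ∀ e : Pts E, ∃ j, lam j ≠ 0 ∧ ∀ i, lam i / lam j ∈ (lp e).O
  gen : ∀ (e : Pts E) (j : Fin (M + 1)), lam j ≠ 0 → (∀ i, lam i / lam j ∈ (lp e).O) →
    (lp e).Of (chB (img π.p (lp (π.map e)).O) lam j)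
  triv : ∀ z : Pts Z, ∃ (R : Matrix (Fin (M + 1)) (Fin c) κ) (S : Matrix (Fin c) (Fin (M + 1)) κ),
    (∀ i a, R i a ∈ (lp z).O) ∧ (∀ a i, S a i ∈ (lp z).O) ∧ S * R = 1 ∧
    (∀ i, lam i = ∑ k, π.p.π ((R * S) i k) * lam k) ∧
    ∀ ξ : Fin c → ℂ, ξ ≠ 0 → ∃ (e : Pts E) (j : Fin (M + 1)) (t : ℂ), π.map e = z ∧ lam j ≠ 0 ∧
      (∀ i, lam i / lam j ∈ (lp e).O) ∧ ∀ i, ∑ a, ev (R i a) z * ξ a = t * ev (lam i / lam j) e

/-- `p` is the residue map of the valuation ring of `v` -/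
structure ExcP (v : Valuation F ℤᵐ⁰) (p : Plc F K) : Prop where
  mem : ∀ f, f ∈ p.O ↔ v f ≤ 1
  surj : ∀ z, ∃ f ∈ p.O, p.π f = z

theorem ExcP.ne_iff (hp : ExcP v p) {f : F} : p.π f ≠ 0 ↔ v f = 1 := by
  rw [← un_plc]
  exact ⟨fun h => v_eq_one h.1 ((hp.mem _).1 h.2.1) ((hp.mem _).1 h.2.2), fun h =>
    ⟨Crest.Agent.X277.Link.ne_of_v_one h, (hp.mem _).2 h.le,
      (hp.mem _).2 (by rw [map_inv₀, h, inv_one])⟩⟩

theorem ExcP.eq_iff (hp : ExcP v p) {f : F} (hf : v f ≤ 1) : p.π f = 0 ↔ v f < 1 := by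
  rw [← not_iff_not, ← ne_eq, hp.ne_iff, not_lt]
  exact ⟨fun h => h.ge, fun h => le_antisymm hf h⟩

theorem ExcP.le_iff (hp : ExcP v p) {x : Pts P} : (lp x).O ≤ p.O ↔ On v x :=
  ⟨fun h f hf => (hp.mem f).1 (h hf), fun h f hf => (hp.mem f).2 (h f hf)⟩

/-- the residue map of a surjection from the valuation ring -/
theorem excP_plcAt {W : Subalgebra ℂ F} (hW : ∀ f, f ∈ W ↔ v f ≤ 1) (ψ : W →ₐ[ℂ] K)
    (h1 : Function.Surjective ψ) (h2 : ∀ a : W, v a < 1 → ψ a = 0) : ExcP v (plcAt ψ) := by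
  refine ⟨fun f => ⟨?_, fun hf => le_plcAt ψ ((hW f).2 hf)⟩, fun z => ?_⟩
  · rintro ⟨a, b, hb, h3⟩
    have h4 : v b = 1 := le_antisymm ((hW _).1 b.2) (not_lt.1 fun h5 => hb (h2 b h5))
    have h5 := (hW _).1 a.2
    rwa [← h3, map_mul, h4, mul_one] at h5
  · obtain ⟨a, rfl⟩ := h1 z
    exact ⟨a, le_plcAt ψ a.2, plcAt_π ψ a⟩

theorem exists_excP (hv : ∀ c : ℂ, v (algebraMap ℂ F c) ≤ 1) :
    ∃ (K : Type) (_ : Field K) (_ : Algebra ℂ K) (p : Plc F K), ExcP v p := by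
  have : IsLocalRing (vr v hv) := inferInstanceAs (IsLocalRing v.valuationSubring)
  refine ⟨IsLocalRing.ResidueField (vr v hv), inferInstance, inferInstance, _,
    excP_plcAt (fun _ => mem_vr) (Ideal.Quotient.mkₐ ℂ (IsLocalRing.maximalIdeal (vr v hv)))
      Ideal.Quotient.mk_surjective fun a ha => Ideal.Quotient.eq_zero_iff_mem.2 ?_⟩
  rw [← van_iff_mem_max]
  exact ⟨a.2, fun h => ha.ne (v_eq_one h.1 h.2.1 h.2.2)⟩

section Exc

variable {G : Gens P q} {h : SmC P q c d} (hv : IsOrd q v) (hp : ExcP v p)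
include hv hp

theorem q_le : q.O ≤ p.O := fun _ hf => (hp.mem _).2 (hv.le_one hf)

theorem p_eq_iff {f : F} (hf : f ∈ q.O) : p.π f = 0 ↔ q.π f = 0 :=
  (hp.eq_iff (hv.le_one hf)).trans (hv.lt_one_iff hf)

theorem ad_exc {x : Pts P} {x' : Pts (G.bl h)} {s : Fin c → F} {w : Fin d → F} (ha : Ad q x s w)
    {l : Fin c} (ho : Over (lp x) (lp x') s l) {d' : ℕ} (hd : 1 + d' = c + d) :
    ∃ w' : Fin d' → F, Ad p x' (fun _ : Fin 1 => s l) w' := by
  have he := hv.eqn_over ha ho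
  have h1 := exists_ad (q := p) hd (hp.le_iff.2 he.loc.le)
    ((ho.coI ha.co).coords finSumFinEquiv.symm) (σ := fun _ : Fin 1 => finSumFinEquiv (Sum.inl l))
    (fun _ _ _ => Subsingleton.elim _ _)
  simp only [Equiv.symm_apply_apply, Sum.elim_inl, bs_self] at h1
  refine h1 fun a ha' => ?_
  rw [hp.eq_iff (he.loc.le a ha'), he.lt_iff ha', inI_unique]
  exact ⟨fun h2 => ⟨_, h2, (div_mul_cancel₀ _ he.ne).symm⟩, fun ⟨r, hr, h2⟩ => by
    rwa [h2, mul_div_cancel_right₀ _ he.ne]⟩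

variable (G h) in
/-- **the exceptional divisor is smooth** -/
theorem smC_exc (hc : 0 < c) {d' : ℕ} (hd : 1 + d' = c + d) : SmC (G.bl h) p 1 d' where
  surj := hp.surj
  ne := (hv.exists_on_bl G h hc).imp fun _ h1 => hp.le_iff.2 h1
  loc x' hx f hf := by
    obtain ⟨b, hb, h1, h2⟩ := ((hv.isPD G h hc).loc_lp (hp.le_iff.1 hx)).den f ((hp.mem f).1 hf)
    exact ⟨_, h2, b, hb, hp.ne_iff.2 h1, mul_comm _ _⟩
  crd x' hx := by
    obtain ⟨s, w, ha⟩ := h.crd _ (hv.on_bl.1 (hp.le_iff.1 hx))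
    obtain ⟨l, ho⟩ := Gens.exists_chart ha
    exact ⟨_, ad_exc hv hp ha ho hd⟩

variable (h) in
/-- the inclusion of function fields -/
def iota : κ →ₐ[ℂ] K :=
  AlgHom.liftOfSurjective q.hom (fun z => (h.surj z).elim fun f hf => ⟨⟨f, hf.1⟩, hf.2⟩)
    (p.hom.comp (Subalgebra.inclusion (q_le hv hp))) fun a ha => (p_eq_iff hv hp a.2).2 ha

variable (h) in
theorem iota_π {f : F} (hf : f ∈ q.O) : iota h hv hp (q.π f) = p.π f :=
  AlgHom.liftOfSurjective_apply q.hom _ _ _ ⟨f, hf⟩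

variable {E : PModel ℂ K} (hE : Md p (G.bl h) E) (hZ : Md q P Z)

theorem dom_exc {e : Pts E} {z : Pts Z} {x' : Pts (G.bl h)} (he : Ov p e x')
    (hz : Ov q z ((G.r h).map x')) : (lp z).Dom ((lp e).comap (Plc.ofHom (iota h hv hp))) := by
  have key : ∀ g ∈ (lp z).O, iota h hv hp g ∈ (lp e).O ∧ ev (iota h hv hp g) e = ev g z := by
    intro g hg
    obtain ⟨f, hf, rfl⟩ := hz.surj g hg
    rw [iota_π h hv hp (hz.le hf), he.ev_eq f ((Gens.r_dom x').le hf), hz.ev_eq f hf]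
    exact ⟨he.mem f ((Gens.r_dom x').le hf), (Gens.r_dom x').eq f hf⟩
  exact ⟨fun g hg => ⟨Algebra.mem_top, (key g hg).1⟩, fun g hg => (key g hg).2⟩

include hE hZ in
theorem exists_base (e : Pts E) : ∃ z : Pts Z, Ov q z ((G.r h).map (hE.mor.map e)) :=
  hZ.down _ (hv.on_bl.1 (hp.le_iff.1 (hE.ov e).le))

/-- the projection of the exceptional divisor to the centre -/
def prj : Mor E Z where
  p := Plc.ofHom (iota h hv hp)
  reg e := by
    obtain ⟨z, hz⟩ := exists_base hv hp hE hZ e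
    obtain ⟨i, hi⟩ := exists_pat z
    exact ⟨i, fun j => (dom_exc hv hp (hE.ov e) hz).le (y_mem hi j)⟩

theorem prj_p : (prj hv hp hE hZ).p = Plc.ofHom (iota h hv hp) := rfl

theorem prj_eq {e : Pts E} {z : Pts Z} (hz : Ov q z ((G.r h).map (hE.mor.map e))) :
    (prj hv hp hE hZ).map e = z := (prj hv hp hE hZ).map_eq (dom_exc hv hp (hE.ov e) hz)

theorem prj_ov (e : Pts E) : Ov q ((prj hv hp hE hZ).map e) ((G.r h).map (hE.mor.map e)) := by
  obtain ⟨z, hz⟩ := exists_base hv hp hE hZ e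
  rwa [prj_eq hv hp hE hZ hz]

theorem prj_comm (e : Pts E) :
    hZ.mor.map ((prj hv hp hE hZ).map e) = (G.r h).map (hE.mor.map e) :=
  hZ.map_eq (prj_ov hv hp hE hZ e)

omit hv in
/-- restriction of a chart ring -/
theorem of_exc {ι : Type} [Fintype ι] [DecidableEq ι] {e : Pts E} {x' : Pts (G.bl h)}
    (he : Ov p e x') {B : Subalgebra ℂ F} {s : ι → F} {l : ι} (hx : (lp x').Of (chB B s l))
    {B' : Subalgebra ℂ K} (h1 : ∀ a ∈ B, p.π a ∈ B') (h2 : B' ≤ (lp e).O) {u : ι → K}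
    (hu : ∀ a, u a / u l = p.π (s a / s l)) : (lp e).Of (chB B' u l) := by
  have h3 : ∀ b ∈ chB B s l, p.π b ∈ chB B' u l := fun b hb =>
    (chB_le (W := pre p (chB B' u l)) (fun a ha => ⟨he.le (hx.le (le_chB ha)), le_chB (h1 a ha)⟩)
      (fun a => ⟨he.le (hx.le (u_mem_chB a)), hu a ▸ u_mem_chB a⟩) hb).2
  refine ⟨chB_le h2 fun a => hu a ▸ he.mem _ (hx.le (u_mem_chB a)), fun g hg => ?_⟩
  obtain ⟨f, hf, rfl⟩ := he.surj g hg
  obtain ⟨a, ha, b, hb, h0, h4⟩ := hx.loc f hf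
  exact ⟨_, h3 a ha, _, h3 b hb, by rwa [← ev, he.ev_eq b (hx.le hb)], by
    rw [← p.π_mul (he.le hf) (he.le (hx.le hb)), h4]⟩

omit hv in
theorem π_div_div {a b g : F} (ha : v a ≤ v g) (hb : v b = v g) (hg : g ≠ 0) :
    p.π (a / g) / p.π (b / g) = p.π (a / b) := by
  rw [← Plc.π_div ((hp.mem _).2 ((v_div_le hg).2 ha))
    (hp.ne_iff.2 ((Crest.Agent.X277.Link.v_div_eq hg).2 hb)), div_div_div_cancel_right₀ hg]

/-- the local form of the bundle structure: `g` is any uniformiser -/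
theorem over_exc {e : Pts E} {s : Fin c → F} {w : Fin d → F}
    (ha : Ad q ((G.r h).map (hE.mor.map e)) s w) {l : Fin c}
    (ho : Over (lp ((G.r h).map (hE.mor.map e))) (lp (hE.mor.map e)) s l) {g : F}
    (hg : v g = exp (-1 : ℤ)) :
    (lp e).Of (chB ((lp ((prj hv hp hE hZ).map e)).O.map (iota h hv hp))
      (fun a => p.π (s a / g)) l) := by
  have hz := prj_ov hv hp hE hZ e
  refine of_exc hp (hE.ov e) ho.of (fun a ha' => Subalgebra.mem_map.2
    ⟨_, hz.mem a ha', iota_π h hv hp (hz.le ha')⟩) ?_ fun a => π_div_div hp (by rw [hv.v_s (ha.coI h), hg]) (by rw [hv.v_s (ha.coI h), hg])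
      (Crest.Agent.X277.Link.ne_zero_of_v hg)
  rintro _ ⟨a, ha', rfl⟩
  exact (prj hv hp hE hZ).π_mem ha'

variable (h) in
/-- the fibre coordinates are independent over the function field of the centre -/
theorem ind_exc {ι : Type} [Fintype ι] [DecidableEq ι] {s : ι → F} (hs : CoI q.O s) (l : ι)
    {k : ℕ} {H : MvPolynomial ι κ} (hH : H.IsHomogeneous k)
    (h0 : eval₂ (iota h hv hp : κ →+* K) (fun a => p.π (s a / s l)) H = 0) : H = 0 := by
  classical
  have he := hv.eqn h.frac hs l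
  choose σ hσ hσ' using h.surj
  let H' : MvPolynomial ι q.O := ∑ m ∈ H.support, monomial m ⟨_, hσ (coeff m H)⟩
  have h1 : map (q.hom : q.O →+* κ) H' = H := by
    rw [map_sum]
    simp only [map_monomial]
    conv_rhs => rw [H.as_sum]
    exact Finset.sum_congr rfl fun m _ => congrArg _ (hσ' _)
  have h2 : H'.IsHomogeneous k := IsHomogeneous.sum _ _ _ fun m hm => isHomogeneous_monomial _ (by
    rw [hH.degree_eq_sum_deg_support hm, Finsupp.degree_apply])
  have h3 : ∀ a, s a / s l ∈ p.O := fun a => (hp.mem _).2 (he.loc.le _ (u_mem_chB a))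
  have h4 := evO_mem (W := chB q.O s l) le_chB u_mem_chB H'
  rw [← h1, ← hs.div_mem_iff (l := l) h2, ← he.lt_iff h4, ← hp.eq_iff (he.loc.le _ h4),
    π_evO (q_le hv hp) h3, ← h0, ← h1, eval₂_map]
  congr 1
  exact RingHom.ext fun a => (iota_π h hv hp a.2).symm

variable (h) in
/-- the function field of the exceptional divisor is generated by the fibre coordinates -/
theorem gen_exc {ι : Type} [Fintype ι] [DecidableEq ι] {s : ι → F} (hs : CoI q.O s) (l : ι)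
    (g : K) : ∃ A B : MvPolynomial ι κ,
      eval₂ (iota h hv hp : κ →+* K) (fun a => p.π (s a / s l)) B ≠ 0 ∧
      g * eval₂ (iota h hv hp : κ →+* K) (fun a => p.π (s a / s l)) B =
        eval₂ (iota h hv hp : κ →+* K) (fun a => p.π (s a / s l)) A := by
  have he := hv.eqn h.frac hs l
  have h3 : ∀ a, s a / s l ∈ p.O := fun a => (hp.mem _).2 (he.loc.le _ (u_mem_chB a))
  have key : ∀ b ∈ chB q.O s l, ∃ A : MvPolynomial ι κ,
      eval₂ (iota h hv hp : κ →+* K) (fun a => p.π (s a / s l)) A = p.π b := by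
    intro b hb
    obtain ⟨H, rfl⟩ := exists_evO hb
    refine ⟨map (q.hom : q.O →+* κ) H, ?_⟩
    rw [π_evO (q_le hv hp) h3, eval₂_map]
    congr 1
    exact RingHom.ext fun a => iota_π h hv hp a.2
  obtain ⟨f, hf, rfl⟩ := hp.surj g
  obtain ⟨b, hb, h1, h2⟩ := he.loc.den f ((hp.mem f).1 hf)
  obtain ⟨A, hA⟩ := key _ h2
  obtain ⟨B, hB⟩ := key _ hb
  exact ⟨A, B, hB ▸ hp.ne_iff.2 h1, by
    rw [hA, hB, p.π_mul ((hp.mem _).2 (he.loc.le _ hb)) hf, mul_comm]⟩

omit hp in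
theorem exists_max (G : Gens P q) : ∃ j₀, ∀ j, v (G.f j) ≤ v (G.f j₀) := by
  obtain ⟨j, -, hj⟩ := Finset.exists_max_image Finset.univ (fun j => v (G.f j)) Finset.univ_nonempty
  exact ⟨j, fun k => hj k (Finset.mem_univ k)⟩

omit hv in
theorem lam_div {j₀ : Fin (G.M + 1)} (h₀ : ∀ j, v (G.f j) ≤ v (G.f j₀)) {j : Fin (G.M + 1)}
    (hj : p.π (G.f j / G.f j₀) ≠ 0) (k : Fin (G.M + 1)) :
    p.π (G.f k / G.f j₀) / p.π (G.f j / G.f j₀) = p.π (G.f k / G.f j) :=
  π_div_div hp (h₀ k) ((Crest.Agent.X277.Link.v_div_eq (G.ne _)).1 (hp.ne_iff.1 hj)) (G.ne _)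

omit hv in
theorem lam_ne {j₀ : Fin (G.M + 1)} (h₀ : ∀ j, v (G.f j) ≤ v (G.f j₀)) {x' : Pts (G.bl h)}
    (hx : On v x') {j : Fin (G.M + 1)} (hj : ∀ k, G.f k / G.f j ∈ (lp x').O) :
    p.π (G.f j / G.f j₀) ≠ 0 :=
  hp.ne_iff.2 ((Crest.Agent.X277.Link.v_div_eq (G.ne _)).2
    (le_antisymm (h₀ j) ((v_div_le (G.ne _)).1 (hx _ (hj j₀)))))

omit hv in
theorem gen_up {j₀ : Fin (G.M + 1)} (h₀ : ∀ j, v (G.f j) ≤ v (G.f j₀)) {e : Pts E}
    {x' : Pts (G.bl h)} (he : Ov p e x') {j : Fin (G.M + 1)} (hj : p.π (G.f j / G.f j₀) ≠ 0)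
    (hm : ∀ k, p.π (G.f k / G.f j₀) / p.π (G.f j / G.f j₀) ∈ (lp e).O) (k : Fin (G.M + 1)) :
    G.f k / G.f j ∈ (lp x').O := by
  obtain ⟨j', hj'⟩ := Gens.exists_gen x'
  have h1 := lam_ne hp h₀ (hp.le_iff.1 he.le) hj'
  have h2 : ev (G.f j / G.f j') x' ≠ 0 := by
    rw [← he.ev_eq _ (hj' j), ← lam_div hp h₀ h1]
    refine LP.ne_of_inv_mem ?_ (div_ne_zero hj h1) (by rw [inv_div]; exact hm j')
    rw [lam_div hp h₀ h1]
    exact he.mem _ (hj' j)
  rw [← div_div_div_cancel_right₀ (G.ne j')]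
  exact LP.div_mem (hj' k) h2

/-- **the exceptional divisor is a projective bundle** -/
theorem pbun_exc (hc : 0 < c) {j₀ : Fin (G.M + 1)} (h₀ : ∀ j, v (G.f j) ≤ v (G.f j₀)) :
    PBun (prj hv hp hE hZ) (fun j => p.π (G.f j / G.f j₀)) c := by
  refine ⟨hc, fun e => ?_, fun e j h1 h2 => ?_, fun z => ?_⟩
  · obtain ⟨j, hj⟩ := Gens.exists_gen (hE.mor.map e)
    have h1 := lam_ne hp h₀ (hp.le_iff.1 (hE.ov e).le) hj
    exact ⟨j, h1, fun i => lam_div hp h₀ h1 i ▸ (hE.ov e).mem _ (hj i)⟩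
  · obtain ⟨i, hi⟩ := exists_pat ((G.r h).map (hE.mor.map e))
    have hz := prj_ov hv hp hE hZ e
    refine of_exc hp (hE.ov e) (Gens.of_gen hi (gen_up hp h₀ (hE.ov e) h1 h2)) (fun a ha => ?_)
      (img_le fun a ha => (prj hv hp hE hZ).π_mem ha) (lam_div hp h₀ h1)
    rw [← iota_π h hv hp (hz.le (A_le hi ha))]
    exact mem_img (p := (prj hv hp hE hZ).p) (hz.mem a (A_le hi ha))
  obtain ⟨x, hz⟩ := hZ.up z
  obtain ⟨i, hi⟩ := exists_pat x
  obtain ⟨s, w, ha⟩ := h.crd x hz.le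
  choose ρ hρ hρ' using fun k => Gens.inI_g (G := G) ha hi k
  choose σ hσ hσ' using fun a => Gens.inI_s (G := G) ha hi a
  have hle := hz.le
  refine ⟨Matrix.of fun k a => q.π (ρ k a), Matrix.of fun a k => q.π (σ a k),
    fun k a => hz.mem _ (hρ k a), fun a k => hz.mem _ (hσ a k), ?_, fun k => ?_, fun ξ hξ => ?_⟩
  · ext a b
    obtain ⟨δ, h1, h2⟩ := ha.co.dual.der
    have h3 : s a = ∑ b, (∑ k, σ a k * ρ k b) * s b := by
      rw [hσ' a]
      simp only [Finset.sum_mul]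
      rw [Finset.sum_comm]
      exact Finset.sum_congr rfl fun k _ => by
        rw [hρ' k, Finset.mul_sum]
        simp only [mul_assoc]
    have h4 : ∀ b, ∑ k, σ a k * ρ k b ∈ (lp x).O := fun b =>
      sum_mem fun k _ => mul_mem (hσ a k) (hρ k b)
    have h5 := congrArg (fun f => q.π (δ b f)) h3
    simp only [map_sum, Derivation.leibniz, smul_eq_mul] at h5
    rw [π_sum _ fun b' _ => hle (add_mem (mul_mem (h4 b') (h1 b _ (ha.s_mem b')))
      (mul_mem (ha.s_mem b') (by simpa using h1 b _ (h4 b')))),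
      Finset.sum_eq_single b (fun b' _ hb => ?_) (by simp), h2, h2, if_pos rfl, mul_one,
      q.π_add (hle (h4 b)) (hle (mul_mem (ha.s_mem b) (by simpa using h1 b _ (h4 b)))),
      q.π_mul (hle (ha.s_mem b)) (hle (by simpa using h1 b _ (h4 b))), ha.π_s, zero_mul, add_zero,
      π_sum _ fun k _ => hle (mul_mem (hσ a k) (hρ k b))] at h5
    · rw [Matrix.mul_apply, Matrix.one_apply]
      simp only [Matrix.of_apply, ← q.π_mul (hle (hσ a _)) (hle (hρ _ b))]
      rw [← h5]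
      by_cases hab : a = b
      · simp [hab]
      · simp [hab, Ne.symm hab]
    · rw [h2, if_neg (Ne.symm hb), mul_zero, zero_add, q.π_mul (hle (ha.s_mem b'))
        (hle (by simpa using h1 b _ (h4 b'))), ha.π_s, zero_mul]
  · have h3 : G.f k / G.f j₀ = ∑ k', (∑ a, ρ k a * σ a k') * (G.f k' / G.f j₀) := by
      have h6 : G.g i k = ∑ k', (∑ a, ρ k a * σ a k') * G.g i k' := by
        simp only [Finset.sum_mul]
        rw [Finset.sum_comm, hρ' k]
        exact Finset.sum_congr rfl fun a _ => by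
          rw [hσ' a, Finset.mul_sum]
          simp only [mul_assoc]
      rw [← G.g_div i, h6, Finset.sum_div]
      exact Finset.sum_congr rfl fun k' _ => by rw [mul_div_assoc, G.g_div i]
    have h4 : ∀ k', ∑ a, ρ k a * σ a k' ∈ (lp x).O := fun k' =>
      sum_mem fun a _ => mul_mem (hρ k a) (hσ a k')
    have h5 : ∀ k', G.f k' / G.f j₀ ∈ p.O := fun k' => (hp.mem _).2 ((v_div_le (G.ne _)).2 (h₀ k'))
    rw [h3, π_sum _ fun k' _ => mul_mem (q_le hv hp (hle (h4 k'))) (h5 k')]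
    refine Finset.sum_congr rfl fun k' _ => ?_
    rw [p.π_mul (q_le hv hp (hle (h4 k'))) (h5 k'), ← iota_π h hv hp (hle (h4 k')),
      π_sum _ fun a _ => hle (mul_mem (hρ k a) (hσ a k')), Matrix.mul_apply]
    simp only [Matrix.of_apply, q.π_mul (hle (hρ k _)) (hle (hσ _ k'))]
    rfl
  · obtain ⟨l, hl⟩ := Function.ne_iff.1 hξ
    obtain ⟨x', rfl, ho, h1⟩ := Gens.exists_dir (G := G) (h := h) ha (l := l)
      (ξ := fun a => ξ a / ξ l) (div_self hl)
    have hx : On v x' := hv.on_bl.2 hle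
    obtain ⟨e, he⟩ := hE.down x' (hp.le_iff.2 hx)
    obtain ⟨j, hj⟩ := Gens.exists_gen x'
    have h2 := lam_ne hp h₀ hx hj
    have h3 : ∀ k, G.g i k / s l ∈ (lp x').O := fun k =>
      ((Gens.inI_g ha hi k).mono ho.dom.le).div_mem ho.mem
    refine ⟨e, j, ξ l * ev (G.g i j / s l) x', prj_eq hv hp hE hZ (by rwa [hE.map_eq he]), h2,
      fun k => lam_div hp h₀ h2 k ▸ he.mem _ (hj k), fun k => ?_⟩
    rw [lam_div hp h₀ h2, he.ev_eq _ (hj k), mul_assoc, ← (lp x').v_mul (h3 j) (hj k),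
      ← G.g_div i, div_mul_div_comm, mul_comm (G.g i j), mul_div_mul_right _ _ (G.g_ne i j),
      hρ' k, Finset.sum_div]
    simp only [mul_div_assoc]
    rw [LP.v_sum _ fun a _ => mul_mem (ho.dom.le (hρ k a)) (ho.mem a), Finset.mul_sum]
    refine Finset.sum_congr rfl fun a _ => ?_
    rw [(lp x').v_mul (ho.dom.le (hρ k a)) (ho.mem a), ho.dom.eq _ (hρ k a), Matrix.of_apply,
      hz.ev_eq _ (hρ k a)]
    have h4 : (lp x').v (s a / s l) = ξ a / ξ l := h1 a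
    rw [h4]
    have h5 : ξ l ≠ 0 := hl
    field_simp

end Exc

end Crest.Agent.X262.Blow
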