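import Crest.Agent.X262.Blow.PB

/-!
# Row 262, BLOW (helper98), part Smz: bridges

* `exists_smC`   : from a subalgebra `O` (the form `Qt.SmZ`) to a place with `SmC`;
* `SmC.finrank_F`, `SmC.finrank_κ` : dimensions;
* `algInd_exc`, `transc_exc`, `rat_exc` : the function field of the exceptional divisor.
-/

set_option autoImplicit false
set_option linter.unusedSectionVars false
set_option linter.style.haveILetI false

open WithZero
open scoped KaehlerDifferential

noncomputable section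

namespace Crest.Agent.X262.Blow

open Crest.Agent.X277.Lef Crest.Agent.X277.Res.Out Crest.Agent.X277.AN.G1
  Crest.Agent.X277.Res.Log Crest.Agent.X277.Strat.Fac MvPolynomial

variable {F κ K : Type} [Field F] [Field κ] [Field K] [Algebra ℂ F] [Algebra ℂ κ] [Algebra ℂ K]
  {q : Plc F κ} {p : Plc F K} {v : Valuation F ℤᵐ⁰} {P : PModel ℂ F} {c d : ℕ}

theorem inI_iff_span {ι : Type} [Fintype ι] {O : Subalgebra ℂ F} {s : ι → F} {a : F} :
    InI O s a ↔ a ∈ Submodule.span O (Set.range s) := by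
  rw [Submodule.mem_span_range_iff_exists_fun]
  exact ⟨fun ⟨r, hr, h⟩ => ⟨fun l => ⟨r l, hr l⟩, h.symm⟩,
    fun ⟨r, h⟩ => ⟨fun l => r l, fun l => (r l).2, h.symm⟩⟩

/-- the residue map of a local subalgebra -/
theorem exists_plc (O : Subalgebra ℂ F) [IsLocalRing O] :
    ∃ (κ : Type) (_ : Field κ) (_ : Algebra ℂ κ) (q : Plc F κ), q.O = O ∧
      ∀ z, ∃ f ∈ q.O, q.π f = z := by
  let ψ : O →ₐ[ℂ] IsLocalRing.ResidueField O :=
    Ideal.Quotient.mkₐ ℂ (IsLocalRing.maximalIdeal O)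
  refine ⟨IsLocalRing.ResidueField O, inferInstance, inferInstance, plcAt ψ,
    le_antisymm ?_ (le_plcAt ψ), fun z => ?_⟩
  · rintro f ⟨a, b, hb, h1⟩
    have h2 : Un O b := not_not.1 fun h3 =>
      hb (Ideal.Quotient.eq_zero_iff_mem.2 ((van_iff_mem_max b).1 ⟨b.2, h3⟩))
    rw [← mul_inv_cancel_right₀ h2.1 f, h1]
    exact mul_mem a.2 h2.2.2
  · obtain ⟨a, rfl⟩ := Ideal.Quotient.mk_surjective z
    exact ⟨a, le_plcAt ψ a.2, plcAt_π ψ a⟩

/-- the three fields of `Qt.SmZ` for the ring of a surjective place -/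
theorem smC_of_smZ {n : ℕ} (hn : c + d = n) (hs : ∀ z, ∃ f ∈ q.O, q.π f = z)
    (h1 : ∃ x : Pts P, (lp x).O ≤ q.O)
    (h2 : ∀ x : Pts P, (lp x).O ≤ q.O → ∀ f ∈ q.O, ∃ b ∈ (lp x).O, Un q.O b ∧ b * f ∈ (lp x).O)
    (h3 : ∀ x : Pts P, (lp x).O ≤ q.O → ∃ (t : Fin n → F) (σ : Fin c → Fin n),
      Coords (lp x).O t ∧ Function.Injective σ ∧
        ∀ a ∈ (lp x).O, Van q.O a ↔ a ∈ Submodule.span (lp x).O (Set.range (t ∘ σ))) :
    SmC P q c d where
  surj := hs
  ne := h1
  loc x hx f hf := by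
    obtain ⟨b, hb, h4, h5⟩ := h2 x hx f hf
    exact ⟨_, h5, b, hb, un_plc.1 h4, mul_comm _ _⟩
  crd x hx := by
    obtain ⟨t, σ, h4, h5, h6⟩ := h3 x hx
    refine ⟨_, exists_ad hn hx h4 h5 fun a ha => ?_⟩
    rw [inI_iff_span, ← show _ ↔ a ∈ Submodule.span (lp x).O (Set.range fun l => t (σ l)) from
      h6 a ha, van_plc]
    exact (and_iff_right (hx ha)).symm

/-- from the form `Qt.SmZ` to a smooth centre -/
theorem exists_smC {O : Subalgebra ℂ F} {n : ℕ} (hn : c + d = n)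
    (h1 : ∃ x : Pts P, (lp x).O ≤ O)
    (h2 : ∀ x : Pts P, (lp x).O ≤ O → ∀ f ∈ O, ∃ b ∈ (lp x).O, Un O b ∧ b * f ∈ (lp x).O)
    (h3 : ∀ x : Pts P, (lp x).O ≤ O → ∃ (t : Fin n → F) (σ : Fin c → Fin n),
      Coords (lp x).O t ∧ Function.Injective σ ∧
        ∀ a ∈ (lp x).O, Van O a ↔ a ∈ Submodule.span (lp x).O (Set.range (t ∘ σ))) :
    ∃ (κ : Type) (_ : Field κ) (_ : Algebra ℂ κ) (q : Plc F κ), q.O = O ∧ SmC P q c d := by
  have : IsLocalRing O := by
    obtain ⟨x, hx⟩ := h1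
    obtain ⟨t, σ, -, -, h4⟩ := h3 x hx
    refine IsLocalRing.of_nonunits_add fun f g hf hg => ?_
    rw [← van_iff_nonunit] at hf hg ⊢
    obtain ⟨b, hb, h5, h6⟩ := h2 x hx f f.2
    obtain ⟨b', hb', h5', h6'⟩ := h2 x hx g g.2
    have h7 := add_mem ((h4 _ (mul_mem hb' h6)).1 (Van.mul_left h5'.2.1 (Van.mul_left h5.2.1 hf)))
      ((h4 _ (mul_mem hb h6')).1 (Van.mul_left h5.2.1 (Van.mul_left h5'.2.1 hg)))
    refine ⟨(f + g).2, fun h8 =>
      ((h4 _ (add_mem (mul_mem hb' h6) (mul_mem hb h6'))).2 h7).2 ?_⟩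
    rw [show b' * (b * f) + b * (b' * g) = b * b' * ((f + g : O) : F) by push_cast; ring]
    exact (h5.mul h5').mul h8
  obtain ⟨κ, _, _, q, rfl, hs⟩ := exists_plc O
  exact ⟨κ, _, _, q, rfl, smC_of_smZ hn hs h1 h2 h3⟩

theorem SmC.finrank_F (h : SmC P q c d) : Module.finrank F Ω[F⁄ℂ] = c + d := by
  obtain ⟨b⟩ := h.exists_basis
  rw [Module.finrank_eq_card_basis b, Fintype.card_fin]

theorem SmC.finrank_κ (h : SmC P q c d) : Module.finrank κ Ω[κ⁄ℂ] = d := by
  obtain ⟨b⟩ := h.exists_basis'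
  rw [Module.finrank_eq_card_basis b, Fintype.card_fin]

variable (h : SmC P q c d) (hv : IsOrd q v) (hp : ExcP v p)
  {ι : Type} [Fintype ι] [DecidableEq ι] {s : ι → F}

/-- the affine fibre coordinates are algebraically independent -/
theorem ind_exc' (hs : CoI q.O s) (l : ι) {H : MvPolynomial {a // a ≠ l} κ}
    (h0 : eval₂ (iota h hv hp : κ →+* K) (fun a => p.π (s a.1 / s l)) H = 0) : H = 0 := by
  obtain ⟨k, H', hH, h1⟩ := exists_homog l (rename Subtype.val H)
  have h2 := ind_exc h hv hp hs l hH (by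
    rw [eval₂_eq_of_dvd h1 _ (by rw [div_self (hs.ne_zero l), Plc.π_one]), eval₂_rename]
    exact h0)
  have h3 := eval₂_eq_of_dvd h1 (C : κ →+* MvPolynomial {a // a ≠ l} κ)
    (ξ := fun a => if h : a = l then 1 else X ⟨a, h⟩) (dif_pos rfl)
  rw [h2, eval₂_zero, eval₂_rename] at h3
  have h4 : ((fun a => if h : a = l then 1 else X ⟨a, h⟩) ∘ Subtype.val :
      {a // a ≠ l} → MvPolynomial {a // a ≠ l} κ) = X := funext fun a => dif_neg a.2
  rw [h4, eval₂_eta] at h3
  exact h3.symm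

theorem algInd_exc (hs : CoI q.O s) (l : ι) :
    letI : Algebra κ K := (iota h hv hp : κ →+* K).toAlgebra
    AlgebraicIndependent κ fun a : {a // a ≠ l} => p.π (s a.1 / s l) := by
  letI : Algebra κ K := (iota h hv hp : κ →+* K).toAlgebra
  exact algebraicIndependent_iff.2 fun H h0 => ind_exc' h hv hp hs l h0

theorem transc_exc (hs : CoI q.O s) {l a : ι} (hal : a ≠ l) :
    letI : Algebra κ K := (iota h hv hp : κ →+* K).toAlgebra
    Transcendental κ (p.π (s a / s l)) := by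
  letI : Algebra κ K := (iota h hv hp : κ →+* K).toAlgebra
  exact (algInd_exc h hv hp hs l).transcendental ⟨a, hal⟩

/-- in codimension two the exceptional divisor is ruled -/
theorem rat_exc {s : Fin 2 → F} (hs : CoI q.O s) : ∃ e : K ≃ₐ[ℂ] RatFunc κ,
    (∀ z, e (iota h hv hp z) = RatFunc.C z) ∧ e (p.π (s 1 / s 0)) = RatFunc.X := by
  letI : Algebra κ K := (iota h hv hp : κ →+* K).toAlgebra
  haveI : IsScalarTower ℂ κ K :=
    IsScalarTower.of_algebraMap_eq fun c => ((iota h hv hp).commutes c).symm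
  have ht := transc_exc h hv hp hs (l := 0) (a := 1) (by decide)
  have h1 : IntermediateField.adjoin κ {p.π (s 1 / s 0)} = ⊤ := by
    have h2 : ∀ A : MvPolynomial (Fin 2) κ, eval₂ (iota h hv hp : κ →+* K)
        (fun a => p.π (s a / s 0)) A ∈ IntermediateField.adjoin κ {p.π (s 1 / s 0)} := by
      intro A
      induction A using MvPolynomial.induction_on with
      | C a => rw [eval₂_C]; exact IntermediateField.algebraMap_mem _ a
      | add A B hA hB => rw [eval₂_add]; exact add_mem hA hB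
      | mul_X A a hA =>
        rw [eval₂_mul, eval₂_X]
        refine mul_mem hA ?_
        fin_cases a
        · change p.π (s 0 / s 0) ∈ _
          rw [div_self (hs.ne_zero 0), Plc.π_one]
          exact one_mem _
        · exact IntermediateField.mem_adjoin_simple_self _ _
    refine eq_top_iff.2 fun g _ => ?_
    obtain ⟨A, B, h3, h4⟩ := gen_exc h hv hp hs 0 g
    rw [eq_div_of_mul_eq h3 h4]
    exact div_mem (h2 A) (h2 B)
  let e : RatFunc κ ≃ₐ[κ] K := ((RatFunc.algEquivOfTranscendental _ ht).trans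
    (IntermediateField.equivOfEq h1)).trans IntermediateField.topEquiv
  exact ⟨e.symm.restrictScalars ℂ, fun z => e.symm.commutes z,
    e.symm_apply_eq.2 (RatFunc.algEquivOfTranscendental_X _ ht).symm⟩

end Crest.Agent.X262.Blow
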